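/-
Row 152, module IN (instantiation), helper22.   ASSEMBLY.
`Good 𝔐 I ξ` = everything the modules MC (machine, self-reference) and EV (r.e. complements) have to deliver about ONE machine.
`Good` ⟹ every f.p. group `M` with r.e. set of non-trivial words embeds in a f.p. simple group (module CT), and ⟹ the hardware record of module CL; hence
every f.g. group with decidable word problem embeds in a f.p. simple group.
-/
import Claimed.Agent.R152.IN.Name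
import Claimed.Agent.R152.CT.Main
import Claimed.Agent.R152.CL.Inst
import Claimed.Agent.R152.CL.InstEv
import Claimed.Agent.R152.A.Kuznetsov

set_option autoImplicit false

noncomputable section

namespace Claimed.Agent.R152.IN

open Claimed.Agent.R152.HW Claimed.Agent.R152.HW.Aff Claimed.Agent.R152.CT Claimed.Agent.R152.H Claimed.Agent.R152.RE Function
  SemidirectProduct
open Claims.C0272.FiniteAlgebraicEnvelopes

universe u

/-- WHAT MC AND EV DELIVER. -/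
structure Good (𝔐 : Aff) (I : Inp 𝔐) (ξ : ℕ → 𝔐.Vec) : Prop where
  start : ∀ q, I.Start (ξ q)
  /-- there is at least one register -/
  reg : ∃ v : 𝔐.Vec, v ≠ 0
  /-- the start configurations are computable -/
  spell : ∃ sp : ℕ → List 𝔐.HLet, Computable sp ∧ ∀ q, (evalH (sp q) : 𝔐.Hs) = inr (x (ξ q))
  re1 : REPred fun W : List 𝔐.HLet => (evalH W : 𝔐.Hs) ≠ 1
  reK : REPred fun W : List 𝔐.HLet => (evalH W : 𝔐.Hs) ∉ I.K
  reP : ∀ D N, REPred fun y : ℕ × List 𝔐.HLet => (evalH y.2 : 𝔐.Hs) ∉ I.P D N (ξ y.1)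
  reKP : ∀ D N, REPred fun y : ℕ × List 𝔐.HLet =>
    ¬ ∃ k ∈ I.K, ∃ p ∈ I.P D N (ξ y.1), (evalH y.2 : 𝔐.Hs) = k * p
  /-- the self-reference (`MC.hardware`) -/
  self : ∀ (D N : ℕ) (Name : ℕ → List (Fin D) → Prop),
    (REPred fun y : ℕ × List (Fin D) => Name y.1 y.2) →
    ∃ q₀, (∀ ν, I.Acc D N (ξ q₀) ν → (∀ y ∈ ν.toWord, y.2 = true) ∧ Name q₀ (I.blocks D N ν)) ∧
      ∀ W : List (Fin D), Name q₀ W →
        ∃ ν, I.Acc D N (ξ q₀) ν ∧ (∀ y ∈ ν.toWord, y.2 = true) ∧ I.blocks D N ν = W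

variable {𝔐 : Aff} {I : Inp 𝔐} {ξ : ℕ → 𝔐.Vec}

/-- THE HARDWARE EXISTS. -/
theorem exists_hardware (h : Good 𝔐 I ξ) {M : Type u} [Group M] [Group.IsFinitelyPresented M] {r : ℕ} (gM : Fin r → M)
    (hg : Subgroup.closure (Set.range gM) = ⊤) (reM : REPred fun w : CL.Wd r => CL.ev gM w ≠ 1) :
    Nonempty (Hardware (𝔐.Hs × M) (nn 𝔐 r)) := by
  obtain ⟨sp, hc, hsp⟩ := h.spell
  obtain ⟨v, hv⟩ := h.reg
  obtain ⟨N, hN⟩ : ∃ N, 32 * (2 * 𝔐.c₀ + 1) ≤ N + 1 := ⟨_, Nat.le_succ _⟩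
  obtain ⟨q₀, h1, h2⟩ := h.self (DD 𝔐 r) N
    (fun q W => (fam gM hg I N h.start hsp q).D .nl (W.map (eD 𝔐 r).symm))
    (re_name gM hg I N h.start hsp hc h.re1 h.reK (h.reP _ _) (h.reKP _ _) reM)
  exact ⟨hardware gM hg I N hN hv (h.start q₀) (hsp q₀) h1 h2⟩

/-- A f.p. group whose non-trivial words are r.e. embeds in a f.p. simple group. -/
theorem embeds_of_re (h : Good 𝔐 I ξ) {M : Type u} [Group M] [Group.IsFinitelyPresented M] {r : ℕ} (gM : Fin r → M)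
    (hg : Subgroup.closure (Set.range gM) = ⊤) (reM : REPred fun w : CL.Wd r => CL.ev gM w ≠ 1) :
    ∃ (S : Type u) (_ : Group S), Group.IsFinitelyPresented S ∧ IsSimpleGroup S ∧
      ∃ f : M →* S, Injective f := by
  obtain ⟨hw⟩ := exists_hardware h gM hg reM
  obtain ⟨S, _, h1, h2, f, hf⟩ := CT.main hw
  refine ⟨S, inferInstance, h1, h2, f.comp (MonoidHom.inr 𝔐.Hs M), ?_⟩
  intro a b hab
  have := hf hab
  simpa using congrArg Prod.snd this

/-- Saturation: in a f.p. group a representable set has an r.e. FULL language. (`EV.Mark.ofGens`, `EV.RESet.of_lang`: `μ.ev = CL.ev gM` by `rfl`; then `REPred.of_eq`/`re_comp` with `w ↦ ((), w)`.) -/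
theorem re_of_rep {M : Type u} [Group M] [hfp : Group.IsFinitelyPresented M] {r : ℕ} (gM : Fin r → M)
    (hg : Subgroup.closure (Set.range gM) = ⊤) {S : Set M} (hS : CL.Rep gM S) :
    REPred fun w : CL.Wd r => CL.ev gM w ∈ S := by
  obtain ⟨Λ, hΛ, h1, h2⟩ := hS
  let μ : EV.Mark (Fin r × Bool) M := EV.Mark.ofGens hfp gM hg
  have hev : ∀ w : CL.Wd r, μ.ev w = CL.ev gM w := fun _ => rfl
  have h3 : EV.RESet μ (fun p : Unit => {x | ∃ w, Λ p w ∧ μ.ev w = x}) := EV.RESet.of_lang hΛ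
  have h4 : REPred fun x : Unit × CL.Wd r => μ.ev x.2 ∈ {x' | ∃ w, Λ x.1 w ∧ μ.ev w = x'} := h3
  have h5 := re_comp h4 (f := fun w : CL.Wd r => (((), w) : Unit × CL.Wd r))
    ((Computable.const ()).pair Computable.id)
  refine h5.of_eq fun w => ?_
  constructor
  · rintro ⟨w', hw', e⟩
    rw [← hev w, ← e, hev w']
    exact h1 w' hw'
  · intro hw
    obtain ⟨w', hw', e⟩ := h2 _ hw
    exact ⟨w', hw', e⟩

/-- A numbering of the generators of `Hs`. -/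
def eH (𝔐 : Aff) : (Fin 𝔐.k ⊕ Fin 𝔐.nL ⊕ Unit) ≃ Fin (Fintype.card (Fin 𝔐.k ⊕ Fin 𝔐.nL ⊕ Unit)) :=
  Fintype.equivFin _

/-- The generators of `Hs`, numbered. -/
def genHs (𝔐 : Aff) (i : Fin (Fintype.card (Fin 𝔐.k ⊕ Fin 𝔐.nL ⊕ Unit))) : 𝔐.Hs := genH ((eH 𝔐).symm i, true)

/-- `CL.ev (genHs 𝔐) w = evalH (w.map fun a => ((eH 𝔐).symm a.1, a.2))` (induction; `guard_genH_inv`). -/
theorem ev_genHs (w : CL.Wd (Fintype.card (Fin 𝔐.k ⊕ Fin 𝔐.nL ⊕ Unit))) :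
    CL.ev (genHs 𝔐) w = evalH (w.map fun a => ((eH 𝔐).symm a.1, a.2)) := by
  induction w with
  | nil => rfl
  | cons l w ih =>
    have e : (evalH ((l :: w).map fun a => ((eH 𝔐).symm a.1, a.2)) : 𝔐.Hs) =
        genH ((eH 𝔐).symm l.1, l.2) * evalH (w.map fun a => ((eH 𝔐).symm a.1, a.2)) := by
      simp [evalH]
    rw [CL.ev_cons, ih, e]
    congr 1
    obtain ⟨i, b⟩ := l
    cases b
    · exact (guard_genH_inv ((eH 𝔐).symm i, true)).symm
    · rfl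

/-- THE EVIDENCE RECORD OF MODULE CL. `gen = genHs 𝔐`; `gen_top` from `evalH_surjective` and `ev_genHs`; each `Rep` is given by the FULL language `{w | CL.ev gen w ∈ S}`
(r.e. by `ev_genHs`, `re_comp` with the `Primrec` map of words and `q` constant; complete because every element is the value of a word);
`h ∉ P * K ↔ h⁻¹ ∉ K * P`: compose `reKP` with `FreeGroup.invRev` (`evalH_invRev`). -/
theorem evHs_of_good (h : Good 𝔐 I ξ) (D N q : ℕ) : Nonempty (CL.EvHs I D N (ξ q)) :=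
  CL.EvHs.of_re I D N (ξ q) h.re1 h.reK
    (re_comp (h.reP D N) (f := fun W : List 𝔐.HLet => ((q, W) : ℕ × List 𝔐.HLet))
      ((Computable.const q).pair Computable.id))
    (re_comp (h.reKP D N) (f := fun W : List 𝔐.HLet => ((q, W) : ℕ × List 𝔐.HLet))
      ((Computable.const q).pair Computable.id))

/-- THE HARDWARE RECORD OF MODULE CL. Copy the proof of `CL.exists_hard` (sorry-free), with the machine `𝔐, I, ξ` of `h` in place of the one obtained from `MC.hardware`: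
`hstart = h.start`, `hacc = h.self`, `E` from `evHs_of_good`. -/
theorem hard_of_good (h : Good 𝔐 I ξ) {G : Type u} [Group G] {m : ℕ} (g : Fin m → G)
    (hWP : ComputablePred fun w : CL.Wd m => CL.ev g w = 1) :
    Nonempty (CL.Hard m (fun w => CL.ev g w = 1)) := by
  have hstart := h.start
  have hName : REPred fun x : ℕ × List (Fin (CL.nB m)) => CL.ev g (CL.wB x.2) = 1 :=
    re_comp hWP.to_re ((CL.computable_wB m).comp Computable.snd)
  obtain ⟨q, h1, h2⟩ := h.self (CL.nB m) 0 (fun _ W => CL.ev g (CL.wB W) = 1) hName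
  obtain ⟨E⟩ := evHs_of_good h (CL.nB m) 0 q
  obtain ⟨π, hπT, hπU⟩ := I.exists_lift_P (CL.nB m) 0 (hstart q)
    (FreeGroup.of none : FreeGroup (CL.Alp m)) (CL.lab0 I m 0)
  -- the label of an accepted conjugate
  have key : ∀ (ν : FreeGroup (I.code (CL.nB m) 0).UL) (hν : ∀ y ∈ ν.toWord, y.2 = true)
      (hmem : I.uel (CL.nB m) 0 ν * Inp.T (ξ q) * (I.uel (CL.nB m) 0 ν)⁻¹ ∈ I.P (CL.nB m) 0 (ξ q)),
      π ⟨_, hmem⟩ = CL.cj (CL.wB (I.blocks (CL.nB m) 0 ν)) := by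
    intro ν hν hmem
    have e : (⟨_, hmem⟩ : I.P (CL.nB m) 0 (ξ q)) =
        ⟨I.uel (CL.nB m) 0 ν, I.uel_mem_P (CL.nB m) 0 (ξ q) ν⟩ *
          ⟨Inp.T (ξ q), I.T_mem_P (CL.nB m) 0 (ξ q)⟩ *
          ⟨I.uel (CL.nB m) 0 ν, I.uel_mem_P (CL.nB m) 0 (ξ q) ν⟩⁻¹ := rfl
    rw [e, map_mul, map_mul, map_inv, hπT, hπU, CL.lift_lab0 I m 0 ν hν, inv_inv, CL.cj]
  have hconj : ∀ ν, I.uel (CL.nB m) 0 ν * Inp.T (ξ q) * (I.uel (CL.nB m) 0 ν)⁻¹ ∈
      I.P (CL.nB m) 0 (ξ q) :=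
    fun ν => mul_mem (mul_mem (I.uel_mem_P _ _ _ ν) (I.T_mem_P _ _ _)) (inv_mem (I.uel_mem_P _ _ _ ν))
  refine ⟨{ H := 𝔐.Hs, fp := Inp.Hs_isFinitelyPresented, n := E.n, gen := E.gen, gen_top := E.gen_top,
            K := I.K, P := I.P (CL.nB m) 0 (ξ q), K_fg := I.K_fg,
            P_fg := CL.P_fg I 0 (CL.nB m) (ξ q), pi0 := π,
            pi0_le := ?_, le_pi0 := ?_, rep_one := E.rep_one, rep_K := E.rep_K, rep_P := E.rep_P,
            rep_PK := E.rep_PK }⟩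
  · intro p hp hK
    have hp2 : p ∈ I.K ⊓ I.P (CL.nB m) 0 (ξ q) := ⟨hK, hp⟩
    rw [I.K_inf_P (CL.nB m) 0 (hstart q)] at hp2
    -- closure induction inside `P`
    have hle : Subgroup.closure {h | ∃ ν, I.Acc (CL.nB m) 0 (ξ q) ν ∧
        h = I.uel (CL.nB m) 0 ν * Inp.T (ξ q) * (I.uel (CL.nB m) 0 ν)⁻¹} ≤
        ((Subgroup.closure {x | ∃ w : CL.Wd m, CL.ev g w = 1 ∧ x = CL.cj w}).comap π).map
          (I.P (CL.nB m) 0 (ξ q)).subtype := by
      rw [Subgroup.closure_le]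
      rintro _ ⟨ν, hν, rfl⟩
      refine ⟨⟨_, hconj ν⟩, ?_, rfl⟩
      rw [SetLike.mem_coe, Subgroup.mem_comap, key ν (h1 ν hν).1]
      exact Subgroup.subset_closure ⟨_, (h1 ν hν).2, rfl⟩
    obtain ⟨p', hp', rfl⟩ := hle hp2
    exact hp'
  · intro w hw
    obtain ⟨W, rfl⟩ := CL.wB_surj w
    obtain ⟨ν, hν, hpos, hb⟩ := h2 W hw
    have hmem : I.uel (CL.nB m) 0 ν * Inp.T (ξ q) * (I.uel (CL.nB m) 0 ν)⁻¹ ∈
        I.K ⊓ I.P (CL.nB m) 0 (ξ q) := by
      rw [I.K_inf_P (CL.nB m) 0 (hstart q)]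
      exact Subgroup.subset_closure ⟨ν, hν, rfl⟩
    refine ⟨_, hmem.2, hmem.1, ?_⟩
    rw [key ν hpos, hb]

/-- **THE HARD DIRECTION**, modulo the existence of a good machine. -/
theorem embeds_of_decidable (hG : ∃ (𝔐 : Aff) (I : Inp 𝔐) (ξ : ℕ → 𝔐.Vec), Good 𝔐 I ξ) {G : Type u} [Group G]
    (h : HasDecidableWordProblem G) : EmbedsInFinitelyPresentedSimpleGroup G := by
  obtain ⟨𝔐, I, ξ, hgood⟩ := hG
  obtain ⟨m, g, hg, hWP⟩ := h
  obtain ⟨hw⟩ := hard_of_good hgood g hWP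
  obtain ⟨M, _, r, gM, hfp, htop, hrep, f, hf⟩ := CL.clapham g hg hWP hw
  obtain ⟨S, _, h1, h2, f', hf'⟩ := embeds_of_re hgood gM htop (re_of_rep gM htop hrep)
  exact ⟨S, inferInstance, h1, h2, f'.comp f, hf'.comp hf⟩

/-- **ROW 152, S0320**, modulo the existence of a good machine. -/
theorem main (hG : ∃ (𝔐 : Aff) (I : Inp 𝔐) (ξ : ℕ → 𝔐.Vec), Good 𝔐 I ξ) (G : Type u) [Group G] [Group.FG G] :
    HasDecidableWordProblem G ↔ EmbedsInFinitelyPresentedSimpleGroup G :=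
  ⟨embeds_of_decidable hG, A.kuznetsov⟩

end Claimed.Agent.R152.IN
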