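/-
Row 152, module IN (instantiation), helper22.   `Good` FROM THE FOUR R.E. SETS OF MODULE EV AND THE CLAUSES OF `MC.hardware_W`.
-/
import Claimed.Agent.R152.IN.Main
import Claimed.Agent.R152.EV.Marks

set_option autoImplicit false

noncomputable section

namespace Claimed.Agent.R152.IN

open Claimed.Agent.R152.HW Claimed.Agent.R152.HW.Aff Claimed.Agent.R152.H Claimed.Agent.R152.RE Claimed.Agent.R152.EV Function
  SemidirectProduct
open scoped Pointwise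

variable {𝔐 : Aff} {I : Inp 𝔐} {ξ : ℕ → 𝔐.Vec}

/-- There is a non-zero vector: the input register. -/
theorem exists_vec_ne_zero (I : Inp 𝔐) : ∃ v : 𝔐.Vec, v ≠ 0 := by
  refine ⟨Pi.single I.r 1, fun h => ?_⟩
  have := congrFun h I.r
  simp at this

/-- `Good` from the exports of MC and EV. -/
theorem good_of_reset (hstart : ∀ q, I.Start (ξ q)) {sp : ℕ → List 𝔐.HLet} (hc : Computable sp)
    (hsp : ∀ q, (evalH (sp q) : 𝔐.Hs) = inr (x (ξ q)))
    (h1 : RESet (muS 𝔐) (fun _ : Unit => {h : 𝔐.Hs | h ≠ 1}))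
    (hK : RESet (muS 𝔐) (fun _ : Unit => ((I.K : Set 𝔐.Hs))ᶜ))
    (hP : ∀ D N, RESet (muS 𝔐) (fun q : ℕ => ((I.P D N (ξ q) : Set 𝔐.Hs))ᶜ))
    (hKP : ∀ D N, RESet (muS 𝔐) (fun q : ℕ => ((I.K : Set 𝔐.Hs) * (I.P D N (ξ q) : Set 𝔐.Hs))ᶜ))
    (hself : ∀ (D N : ℕ) (Name : ℕ → List (Fin D) → Prop),
      (REPred fun y : ℕ × List (Fin D) => Name y.1 y.2) →
      ∃ q₀, (∀ ν, I.Acc D N (ξ q₀) ν → (∀ y ∈ ν.toWord, y.2 = true) ∧ Name q₀ (I.blocks D N ν)) ∧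
        ∀ W : List (Fin D), Name q₀ W →
          ∃ ν, I.Acc D N (ξ q₀) ν ∧ (∀ y ∈ ν.toWord, y.2 = true) ∧ I.blocks D N ν = W) :
    Good 𝔐 I ξ where
  start := hstart
  reg := exists_vec_ne_zero I
  spell := ⟨sp, hc, hsp⟩
  re1 := re_comp h1 ((Computable.const ()).pair Computable.id)
  reK := re_comp hK ((Computable.const ()).pair Computable.id)
  reP := fun D N => hP D N
  reKP := fun D N => REPred.of_eq (hKP D N) (fun y => by
    show (evalH y.2 : 𝔐.Hs) ∉ (I.K : Set 𝔐.Hs) * (I.P D N (ξ y.1) : Set 𝔐.Hs) ↔ _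
    rw [Set.mem_mul]
    constructor
    · rintro h ⟨k, hk, p, hp, e⟩
      exact h ⟨k, hk, p, hp, e.symm⟩
    · rintro h ⟨k, hk, p, hp, e⟩
      exact h ⟨k, hk, p, hp, e.symm⟩)
  self := hself

end Claimed.Agent.R152.IN
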