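import Mathlib

/-!
# Row 152, module IN: the kernel of ANY finite marking of a finitely presented group is finitely normally generated.  (helper283)
-/

namespace Claimed.Agent.R152.IN

/-- Change of generators for finitely presented groups. -/
theorem ker_fng {G : Type*} [Group G] [h : Group.IsFinitelyPresented G] {n : ℕ}
    (ψ : FreeGroup (Fin n) →* G) (hψ : Function.Surjective ψ) :
    ∃ R : Set (FreeGroup (Fin n)), R.Finite ∧ Subgroup.normalClosure R = ψ.ker := by
  obtain ⟨k, φ, hφ, S, hS, hSφ⟩ := h.out
  choose u hu using fun i : Fin k => hψ (φ (FreeGroup.of i))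
  choose v hv using fun b : Fin n => hφ (ψ (FreeGroup.of b))
  let f : FreeGroup (Fin k) →* FreeGroup (Fin n) := FreeGroup.lift u
  let g : FreeGroup (Fin n) →* FreeGroup (Fin k) := FreeGroup.lift v
  have hf : ∀ w, ψ (f w) = φ w := by
    intro w
    have : ψ.comp f = φ := by
      ext i
      simp [f, hu]
    exact DFunLike.congr_fun this w
  have hg : ∀ w, φ (g w) = ψ w := by
    intro w
    have : φ.comp g = ψ := by
      ext b
      simp [g, hv]
    exact DFunLike.congr_fun this w
  let R : Set (FreeGroup (Fin n)) :=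
    f '' S ∪ Set.range (fun b : Fin n => (FreeGroup.of b)⁻¹ * f (g (FreeGroup.of b)))
  refine ⟨R, (hS.image _).union (Set.finite_range _), le_antisymm ?_ ?_⟩
  · apply Subgroup.normalClosure_le_normal
    rintro x (⟨s, hs, rfl⟩ | ⟨b, rfl⟩)
    · have h1 : s ∈ φ.ker := hSφ ▸ Subgroup.subset_normalClosure hs
      rw [SetLike.mem_coe, MonoidHom.mem_ker, hf]
      exact h1
    · rw [SetLike.mem_coe, MonoidHom.mem_ker, map_mul, map_inv, hf, hg, inv_mul_cancel]
  · intro w hw
    have h1 : ∀ w, QuotientGroup.mk' (Subgroup.normalClosure R) w =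
        QuotientGroup.mk' (Subgroup.normalClosure R) (f (g w)) := by
      intro w
      have : QuotientGroup.mk' (Subgroup.normalClosure R) =
          ((QuotientGroup.mk' (Subgroup.normalClosure R)).comp f).comp g := by
        ext b
        simp only [MonoidHom.comp_apply, QuotientGroup.mk'_apply]
        rw [QuotientGroup.eq]
        exact Subgroup.subset_normalClosure (Or.inr ⟨b, rfl⟩)
      exact DFunLike.congr_fun this w
    have h2 : g w ∈ Subgroup.normalClosure S := by
      rw [hSφ, MonoidHom.mem_ker, hg]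
      exact hw
    have h3 : Subgroup.normalClosure S ≤ (Subgroup.normalClosure R).comap f := by
      apply Subgroup.normalClosure_le_normal
      intro s hs
      exact Subgroup.subset_normalClosure (Or.inl ⟨s, hs, rfl⟩)
    have h4 : f (g w) ∈ Subgroup.normalClosure R := h3 h2
    have h5 := h1 w
    rw [(QuotientGroup.eq_one_iff (f (g w))).2 h4 |> fun e => (show QuotientGroup.mk' (Subgroup.normalClosure R) (f (g w)) = 1 from e)] at h5
    exact (QuotientGroup.eq_one_iff w).1 h5

/-- The same for an arbitrary finite alphabet, in Mathlib's vocabulary (subtask 7120, helper97). -/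
theorem ker_isFNG_of_fp {α : Type*} [Finite α] {G : Type*} [Group G]
    [h : Group.IsFinitelyPresented G] (ψ : FreeGroup α →* G) (hψ : Function.Surjective ψ) :
    ψ.ker.IsFinitelyNormallyGenerated := by
  obtain ⟨n, ⟨e⟩⟩ := Finite.exists_equiv_fin α
  let E : FreeGroup (Fin n) ≃* FreeGroup α := FreeGroup.freeGroupCongr e.symm
  obtain ⟨R, hR, hRk⟩ := ker_fng (ψ.comp E.toMonoidHom) (hψ.comp E.surjective)
  refine ⟨E '' R, hR.image _, ?_⟩
  have h1 := Subgroup.map_normalClosure R E.toMonoidHom E.surjective
  have h2 : (E.toMonoidHom : FreeGroup (Fin n) → FreeGroup α) '' R = E '' R := rfl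
  rw [h2] at h1
  rw [← h1, hRk]
  ext w
  rw [Subgroup.mem_map, MonoidHom.mem_ker]
  constructor
  · rintro ⟨x, hx, rfl⟩
    exact hx
  · intro hw
    refine ⟨E.symm w, ?_, E.apply_symm_apply w⟩
    rw [MonoidHom.mem_ker, MonoidHom.comp_apply]
    show ψ (E (E.symm w)) = 1
    rw [E.apply_symm_apply, hw]

end Claimed.Agent.R152.IN
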