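/-
Row 152, module IN (instantiation), helper22.   THE MARKING OF `H = Hs × M` AND THE WORD MAPS.
Generators of `H`: those of `Hs` (`x_i`, `lam_l`, `t`; words `List HLet`, value `evalH`) and those of `M` (`gM j`; words `CL.Wd r`, value `CL.ev gM`), numbered by `Fin (nn 𝔐 r)`.
-/
import Claimed.Agent.R152.CT.Gram
import Claimed.Agent.R152.HW.Guard
import Claimed.Agent.R152.CL.Rep

set_option autoImplicit false

noncomputable section

namespace Claimed.Agent.R152.IN

open Claimed.Agent.R152.HW Claimed.Agent.R152.HW.Aff Claimed.Agent.R152.CT Function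

universe u

variable (𝔐 : Aff) (r : ℕ)

/-- The type of generators. -/
abbrev GT : Type := (Fin 𝔐.k ⊕ Fin 𝔐.nL ⊕ Unit) ⊕ Fin r

/-- The number of generators. -/
def nn : ℕ := Fintype.card (GT 𝔐 r)

/-- A numbering of the generators. -/
def eG : GT 𝔐 r ≃ Fin (nn 𝔐 r) := Fintype.equivFin _

variable {𝔐 r} {M : Type u} [Group M] (gM : Fin r → M)

/-- The generators of `Hs × M`. -/
def gen (i : Fin (nn 𝔐 r)) : 𝔐.Hs × M :=
  Sum.elim (fun y => ((genH (y, true) : 𝔐.Hs), (1 : M))) (fun j => ((1 : 𝔐.Hs), gM j)) ((eG 𝔐 r).symm i)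

/-- The marking. -/
def phi : FH (nn 𝔐 r) →* 𝔐.Hs × M := FreeGroup.lift (gen gM)

variable (r) in
/-- `Hs`-words as `H`-words. -/
def embH (W : List 𝔐.HLet) : WH (nn 𝔐 r) := W.map fun y => (eG 𝔐 r (Sum.inl y.1), y.2)

/-- The `Hs`-letters of an `H`-word. -/
def prH (w : WH (nn 𝔐 r)) : List 𝔐.HLet :=
  w.filterMap fun a => ((eG 𝔐 r).symm a.1).getLeft?.map fun y => (y, a.2)

/-- The `M`-letters of an `H`-word. -/
def prM (w : WH (nn 𝔐 r)) : CL.Wd r :=
  w.filterMap fun a => ((eG 𝔐 r).symm a.1).getRight?.map fun j => (j, a.2)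

/-- One letter (cases on `(eG 𝔐 r).symm a.1` and on `a.2`; `guard_genH_inv`). -/
theorem phi_mk_singleton (a : Fin (nn 𝔐 r) × Bool) :
    phi gM (FreeGroup.mk [a]) = ((evalH (prH [a]) : 𝔐.Hs), CL.ev gM (prM [a])) := by
  obtain ⟨i, b⟩ := a
  have h1 : phi gM (FreeGroup.mk [(i, b)]) = if b then gen gM i else (gen gM i)⁻¹ := by
    unfold phi
    rw [FreeGroup.lift_mk]
    cases b <;> simp
  rw [h1]
  unfold gen prH prM
  rcases h : (eG 𝔐 r).symm i with y | j
  · have e1 : List.filterMap (fun a : Fin (nn 𝔐 r) × Bool =>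
        Option.map (fun y => (y, a.2)) ((eG 𝔐 r).symm a.1).getLeft?) [(i, b)] = [(y, b)] := by
      simp [h]
    have e2 : List.filterMap (fun a : Fin (nn 𝔐 r) × Bool =>
        Option.map (fun j => (j, a.2)) ((eG 𝔐 r).symm a.1).getRight?) [(i, b)] = [] := by
      simp [h]
    rw [e1, e2]
    have e3 : (evalH [(y, b)] : 𝔐.Hs) = genH (y, b) := by simp [evalH]
    rw [e3, CL.ev_nil]
    cases b
    · have e4 := guard_genH_inv (𝔐 := 𝔐) (y, true)
      simp only [Bool.not_true] at e4
      simp [e4]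
    · simp
  · have e1 : List.filterMap (fun a : Fin (nn 𝔐 r) × Bool =>
        Option.map (fun y => (y, a.2)) ((eG 𝔐 r).symm a.1).getLeft?) [(i, b)] = [] := by
      simp [h]
    have e2 : List.filterMap (fun a : Fin (nn 𝔐 r) × Bool =>
        Option.map (fun j => (j, a.2)) ((eG 𝔐 r).symm a.1).getRight?) [(i, b)] = [(j, b)] := by
      simp [h]
    rw [e1, e2]
    have e3 : (evalH [] : 𝔐.Hs) = 1 := by simp [evalH]
    rw [e3, CL.ev_cons, CL.ev_nil]
    cases b <;> simp

/-- The value of a word, componentwise (induction on `w`; `guard_evalH_append`, `CL.ev_append`, `List.filterMap_append`). -/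
theorem phi_mk (w : WH (nn 𝔐 r)) :
    phi gM (FreeGroup.mk w) = ((evalH (prH w) : 𝔐.Hs), CL.ev gM (prM w)) := by
  induction w with
  | nil =>
    have e3 : (evalH [] : 𝔐.Hs) = 1 := by simp [evalH]
    show phi gM 1 = ((evalH [] : 𝔐.Hs), CL.ev gM [])
    rw [map_one, e3, CL.ev_nil]
    rfl
  | cons a w ih =>
    have h1 : (FreeGroup.mk (a :: w) : FH (nn 𝔐 r)) = FreeGroup.mk [a] * FreeGroup.mk w := by
      rw [FreeGroup.mul_mk]
      rfl
    have h2 : prH (a :: w) = prH [a] ++ prH w := by
      unfold prH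
      rw [← List.filterMap_append]
      rfl
    have h3 : prM (a :: w) = prM [a] ++ prM w := by
      unfold prM
      rw [← List.filterMap_append]
      rfl
    rw [h1, map_mul, phi_mk_singleton, ih, h2, h3, guard_evalH_append, CL.ev_append]
    rfl

theorem prH_embH (W : List 𝔐.HLet) : prH (embH r W) = W := by
  induction W with
  | nil => rfl
  | cons y W ih =>
    unfold prH embH at ih ⊢
    rw [List.map_cons, List.filterMap_cons]
    simp only [Equiv.symm_apply_apply, Sum.getLeft?_inl, Option.map_some]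
    rw [ih]

theorem prM_embH (W : List 𝔐.HLet) : prM (embH r W) = [] := by
  induction W with
  | nil => rfl
  | cons y W ih =>
    unfold prM embH at ih ⊢
    rw [List.map_cons, List.filterMap_cons]
    simp only [Equiv.symm_apply_apply, Sum.getRight?_inl, Option.map_none]
    rw [ih]

theorem phi_embH (W : List 𝔐.HLet) : phi gM (FreeGroup.mk (embH r W)) = ((evalH W : 𝔐.Hs), (1 : M)) := by
  rw [phi_mk, prH_embH, prM_embH]
  rfl

theorem length_prH_le (w : WH (nn 𝔐 r)) : (prH w).length ≤ w.length :=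
  List.length_filterMap_le _ _

/-- `embH` commutes with formal inverses. -/
theorem embH_invRev (W : List 𝔐.HLet) : embH r (FreeGroup.invRev W) = FreeGroup.invRev (embH r W) := by
  unfold embH FreeGroup.invRev
  rw [List.map_reverse, List.map_map, List.map_map]
  rfl

theorem embH_append (W W' : List 𝔐.HLet) : embH r (W ++ W') = embH r W ++ embH r W' :=
  List.map_append

/-- `evalH` of the formal inverse (`guard_evalH_inv`; `FreeGroup.invRev W = (W.map fun y => (y.1, !y.2)).reverse`). -/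
theorem evalH_invRev (W : List 𝔐.HLet) : (evalH (FreeGroup.invRev W) : 𝔐.Hs) = (evalH W)⁻¹ :=
  guard_evalH_inv W

variable (𝔐) in
/-- `M`-words as `H`-words. -/
def wordsEmbM (w : CL.Wd r) : WH (nn 𝔐 r) := w.map fun a => (eG 𝔐 r (Sum.inr a.1), a.2)

theorem words_prH_embM (w : CL.Wd r) : prH (wordsEmbM 𝔐 w) = [] := by
  induction w with
  | nil => rfl
  | cons y W ih =>
    unfold prH wordsEmbM at ih ⊢
    rw [List.map_cons, List.filterMap_cons]
    simp only [Equiv.symm_apply_apply, Sum.getLeft?_inr, Option.map_none]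
    rw [ih]

theorem words_prM_embM (w : CL.Wd r) : prM (wordsEmbM 𝔐 w) = w := by
  induction w with
  | nil => rfl
  | cons y W ih =>
    unfold prM wordsEmbM at ih ⊢
    rw [List.map_cons, List.filterMap_cons]
    simp only [Equiv.symm_apply_apply, Sum.getRight?_inr, Option.map_some]
    rw [ih]

/-- `(h,m) = (h,1) (1,m)`; `evalH_surjective`, `phi_embH`; `CL.exists_ev` and the words `w.map fun a => (eG (inr a.1), a.2)`. -/
theorem phi_surjective (hg : Subgroup.closure (Set.range gM) = ⊤) : Surjective (phi (𝔐 := 𝔐) gM) := by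
  rintro ⟨h, m⟩
  obtain ⟨W, rfl⟩ := evalH_surjective h
  obtain ⟨w, rfl⟩ := CL.exists_ev hg m
  refine ⟨FreeGroup.mk (embH r W) * FreeGroup.mk (wordsEmbM 𝔐 w), ?_⟩
  have e3 : (evalH [] : 𝔐.Hs) = 1 := by simp [evalH]
  rw [map_mul, phi_embH, phi_mk, words_prH_embM, words_prM_embM, e3]
  simp

/-- All three word maps are primitive recursive (`Primrec.list_map`, `Primrec.list_flatMap` with `Primrec.dom_finite`; write `filterMap f` as
`flatMap (fun a => (f a).toList)`). -/
theorem primrec_embH : Primrec (embH r : List 𝔐.HLet → WH (nn 𝔐 r)) :=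
  Primrec.list_map Primrec.id
    ((Primrec.dom_finite (fun y : 𝔐.HLet => (eG 𝔐 r (Sum.inl y.1), y.2))).comp Primrec.snd).to₂

theorem primrec_prH : Primrec (prH : WH (nn 𝔐 r) → List 𝔐.HLet) := by
  have h : (prH : WH (nn 𝔐 r) → List 𝔐.HLet) = fun w => w.flatMap fun a =>
      (((eG 𝔐 r).symm a.1).getLeft?.map fun y => (y, a.2)).toList := by
    funext w
    exact List.filterMap_eq_flatMap_toList _ _
  rw [h]
  exact Primrec.list_flatMap Primrec.id
    ((Primrec.dom_finite (fun a : Fin (nn 𝔐 r) × Bool =>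
      (((eG 𝔐 r).symm a.1).getLeft?.map fun y => (y, a.2)).toList)).comp Primrec.snd).to₂

theorem primrec_prM : Primrec (prM : WH (nn 𝔐 r) → CL.Wd r) := by
  have h : (prM : WH (nn 𝔐 r) → CL.Wd r) = fun w => w.flatMap fun a =>
      (((eG 𝔐 r).symm a.1).getRight?.map fun j => (j, a.2)).toList := by
    funext w
    exact List.filterMap_eq_flatMap_toList _ _
  rw [h]
  exact Primrec.list_flatMap Primrec.id
    ((Primrec.dom_finite (fun a : Fin (nn 𝔐 r) × Bool =>
      (((eG 𝔐 r).symm a.1).getRight?.map fun j => (j, a.2)).toList)).comp Primrec.snd).to₂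

theorem primrec_incW (n : ℕ) : Primrec (incW : WH n → WX n) :=
  Primrec.list_map Primrec.id
    ((Primrec.dom_finite (fun p : Fin n × Bool => ((some p.1 : Z n), p.2))).comp Primrec.snd).to₂

end Claimed.Agent.R152.IN
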