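/-
Row 152, module IN (instantiation), helper22.   THE `CT.HwBase` OF `H = Hs × M`.
`K = K₀ × M`, `P = P₀(ξ) × 1`; blocks are indexed by the signed letters `Z n × Bool` of `X`; `π₀`: marker `↦ j`, block `(z,b) ↦ z^{±1}`, the other input letters `↦ 1`.
The evidence sets are the FULL sets of words (`{w | φ w ≠ 1}` ...), so that soundness and completeness are trivial.
-/
import Claimed.Agent.R152.IN.FpKer
import Claimed.Agent.R152.IN.Words
import Claimed.Agent.R152.B.FpProd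

set_option autoImplicit false

noncomputable section

namespace Claimed.Agent.R152.IN

open Claimed.Agent.R152.HW Claimed.Agent.R152.HW.Aff Claimed.Agent.R152.CT Claimed.Agent.R152.H Function SemidirectProduct

universe u

variable (𝔐 : Aff) (r : ℕ)

/-- The number of blocks. -/
def DD : ℕ := Fintype.card (Z (nn 𝔐 r) × Bool)

/-- Blocks = signed letters of `X`. -/
def eD : Z (nn 𝔐 r) × Bool ≃ Fin (DD 𝔐 r) := Fintype.equivFin _

variable {𝔐} (I : Inp 𝔐) (N : ℕ)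

/-- The generators of `U`. -/
abbrev UL : Type := (I.code (DD 𝔐 r) N).UL

/-- The label of a generator of `U`, in `FX`. -/
def f0X : UL r I N → FX (nn 𝔐 r) :=
  Sum.elim (fun l => FreeGroup.mk [(eD 𝔐 r).symm l]) (fun _ => 1)

/-- The label of a `U`-word, in `FX`. -/
def lX : FreeGroup (UL r I N) →* FX (nn 𝔐 r) := FreeGroup.lift (f0X r I N)

/-- The hardware input group. -/
abbrev P0 (ξ : 𝔐.Vec) : Subgroup 𝔐.Hs := I.P (DD 𝔐 r) N ξ

variable {r I N}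

/-- `π₀` on `P₀`. -/
def piP {ξ : 𝔐.Vec} (hξ : I.Start ξ) : P0 r I N ξ →* FJ (nn 𝔐 r) :=
  (I.exists_lift_P (DD 𝔐 r) N hξ (Jl (nn 𝔐 r)) (fun a => incJ (nn 𝔐 r) (f0X r I N a))).choose

theorem piP_T {ξ : 𝔐.Vec} (hξ : I.Start ξ) :
    piP (r := r) (N := N) hξ ⟨Inp.T ξ, I.T_mem_P (DD 𝔐 r) N ξ⟩ = Jl (nn 𝔐 r) :=
  (I.exists_lift_P (DD 𝔐 r) N hξ (Jl (nn 𝔐 r)) (fun a => incJ (nn 𝔐 r) (f0X r I N a))).choose_spec.1

/-- `choose_spec.2` and `FreeGroup.lift (incJ ∘ f0X) = incJ.comp (lift f0X)` (`FreeGroup.ext_hom`). -/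
theorem piP_uel {ξ : 𝔐.Vec} (hξ : I.Start ξ) (ν : FreeGroup (UL r I N)) :
    piP (r := r) (N := N) hξ ⟨I.uel (DD 𝔐 r) N ν, I.uel_mem_P (DD 𝔐 r) N ξ ν⟩ = incJ (nn 𝔐 r) (lX r I N ν) := by
  have h1 := (I.exists_lift_P (DD 𝔐 r) N hξ (Jl (nn 𝔐 r))
    (fun a => incJ (nn 𝔐 r) (f0X r I N a))).choose_spec.2 ν
  have h2 : FreeGroup.lift (fun a => incJ (nn 𝔐 r) (f0X r I N a)) =
      (incJ (nn 𝔐 r)).comp (lX r I N) := by
    apply FreeGroup.ext_hom
    intro a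
    simp [lX]
  have h3 : FreeGroup.lift (fun a => incJ (nn 𝔐 r) (f0X r I N a)) ν = incJ (nn 𝔐 r) (lX r I N ν) := by
    rw [h2]; rfl
  exact h1.trans h3

variable (r I N) (M : Type u) [Group M]

/-- `P = P₀ × 1`. -/
def PP (ξ : 𝔐.Vec) : Subgroup (𝔐.Hs × M) := (P0 r I N ξ).prod ⊥

/-- `K = K₀ × M`. -/
def KK : Subgroup (𝔐.Hs × M) := I.K.prod ⊤

variable {r I N M}

theorem mem_PP {ξ : 𝔐.Vec} {h : 𝔐.Hs × M} : h ∈ PP r I N M ξ ↔ h.1 ∈ P0 r I N ξ ∧ h.2 = 1 := by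
  simp [PP, Subgroup.mem_prod]

theorem mem_KK {h : 𝔐.Hs × M} : h ∈ KK I M ↔ h.1 ∈ I.K := by
  simp [KK, Subgroup.mem_prod]

/-- `P → P₀`. -/
def fstP (ξ : 𝔐.Vec) : PP r I N M ξ →* P0 r I N ξ :=
  ((MonoidHom.fst 𝔐.Hs M).comp (PP r I N M ξ).subtype).codRestrict _ (fun y => (mem_PP.1 y.2).1)

/-- `π₀`. -/
def pi0 {ξ : 𝔐.Vec} (hξ : I.Start ξ) : PP r I N M ξ →* FJ (nn 𝔐 r) := (piP hξ).comp (fstP ξ)

theorem pi0_apply {ξ : 𝔐.Vec} (hξ : I.Start ξ) (h : 𝔐.Hs × M) (hh : h ∈ PP r I N M ξ) :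
    pi0 hξ ⟨h, hh⟩ = piP hξ ⟨h.1, (mem_PP.1 hh).1⟩ := rfl

/-! ### Words -/

/-- The letter `t`. -/
def tH : 𝔐.HLet := (Sum.inr (Sum.inr ()), true)

/-- The word of the marker `T ξ`, from a word `sp` of `x ξ`. -/
def tWH (sp : List 𝔐.HLet) : List 𝔐.HLet := sp ++ tH :: FreeGroup.invRev sp

/-- Words in the machine letters as `Hs`-words. -/
def lamW (w : List (Fin 𝔐.nL × Bool)) : List 𝔐.HLet := w.map fun y => (Sum.inr (Sum.inl y.1), y.2)

variable (r I N) in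
/-- The word of a generator of `U`. -/
def ulW (a : UL r I N) : List 𝔐.HLet := lamW ((I.code (DD 𝔐 r) N).blkWord a)

/-- `Inp.T ξ = tt (cf ξ)`, `Semi.tt_mk`, `evalH_invRev`, `guard_evalH_append`. -/
theorem evalH_tWH {ξ : 𝔐.Vec} {sp : List 𝔐.HLet} (hsp : (evalH sp : 𝔐.Hs) = inr (x ξ)) :
    (evalH (tWH sp) : 𝔐.Hs) = Inp.T ξ := by
  have h1 : (evalH (tH :: FreeGroup.invRev sp) : 𝔐.Hs) = Semi.t * (evalH sp)⁻¹ := by
    have : (tH :: FreeGroup.invRev sp : List 𝔐.HLet) = [tH] ++ FreeGroup.invRev sp := rfl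
    rw [this, guard_evalH_append, evalH_invRev]
    congr 1
  unfold tWH Inp.T cf
  rw [guard_evalH_append, h1, hsp, Semi.tt_mk, mul_assoc]

/-- Induction on `w` (`genH`, `genK`, `sig`, `FreeGroup.lift_mk`). -/
theorem evalH_lamW (w : List (Fin 𝔐.nL × Bool)) : (evalH (lamW w) : 𝔐.Hs) = inr (sig (FreeGroup.mk w)) := by
  induction w with
  | nil =>
    have : (FreeGroup.mk ([] : List (Fin 𝔐.nL × Bool))) = 1 := FreeGroup.one_eq_mk.symm
    rw [this, map_one, map_one]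
    rfl
  | cons y w ih =>
    have h1 : lamW (y :: w) = [((Sum.inr (Sum.inl y.1), y.2) : 𝔐.HLet)] ++ lamW w := rfl
    have h2 : FreeGroup.mk (y :: w) = FreeGroup.mk [y] * FreeGroup.mk w := by
      rw [FreeGroup.mul_mk]; rfl
    rw [h1, guard_evalH_append, ih, h2, map_mul, map_mul]
    congr 1
    rcases y with ⟨l, e⟩
    cases e
    · have h3 : FreeGroup.mk [(l, false)] = (FreeGroup.of l)⁻¹ := rfl
      rw [h3, map_inv]
      simp [evalH, genH, genK, sig]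
    · have h3 : FreeGroup.mk [(l, true)] = FreeGroup.of l := rfl
      rw [h3]
      simp [evalH, genH, genK, sig]

/-- `mk (blkWord a) = blkHom (of a)` (definition of `blk`, `mk_replicate_aux`), `evalH_lamW`. -/
theorem evalH_ulW (a : UL r I N) :
    (evalH (ulW r I N a) : 𝔐.Hs) = I.uel (DD 𝔐 r) N (FreeGroup.of a) := by
  unfold ulW Inp.uel
  rw [evalH_lamW]
  congr 2
  unfold Code.blkHom
  rw [FreeGroup.lift_apply_of]
  rcases a with l | j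
  · simp only [Code.blkWord, Sum.elim_inl, Code.blk]
    rw [← FreeGroup.mul_mk, ← FreeGroup.mul_mk, Code.mk_replicate_aux, Code.mk_replicate_aux]
    rfl
  · rfl

variable (r I N) in
/-- The words of the generators of `U`. -/
def ulList : List (List 𝔐.HLet) :=
  (List.finRange (I.code (DD 𝔐 r) N).D).map (fun l => ulW r I N (Sum.inl l)) ++
    (List.finRange (I.code (DD 𝔐 r) N).nO).map (fun j => ulW r I N (Sum.inr j))

theorem mem_ulList (s : List 𝔐.HLet) : s ∈ ulList r I N ↔ ∃ a, s = ulW r I N a := by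
  unfold ulList
  rw [List.mem_append, List.mem_map, List.mem_map]
  constructor
  · rintro (⟨l, -, rfl⟩ | ⟨j, -, rfl⟩)
    · exact ⟨Sum.inl l, rfl⟩
    · exact ⟨Sum.inr j, rfl⟩
  · rintro ⟨l | j, rfl⟩
    · exact Or.inl ⟨l, List.mem_finRange _, rfl⟩
    · exact Or.inr ⟨j, List.mem_finRange _, rfl⟩

variable (gM : Fin r → M)

/-- `P_eq_closure`, `phi_embH`, `evalH_tWH`, `evalH_ulW`, `mem_ulList`; `PP = map (inl) P₀` and `MonoidHom.map_closure`. -/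
theorem PP_eq {ξ : 𝔐.Vec} {sp : List 𝔐.HLet} (hsp : (evalH sp : 𝔐.Hs) = inr (x ξ)) :
    PP r I N M ξ = Subgroup.closure {h | ∃ s ∈ (embH r (tWH sp) :: (ulList r I N).map (embH r)),
      h = phi gM (FreeGroup.mk s)} := by
  have h1 : PP r I N M ξ = (P0 r I N ξ).map (MonoidHom.inl 𝔐.Hs M) := by
    ext h
    rw [mem_PP, Subgroup.mem_map]
    constructor
    · rintro ⟨h1, h2⟩
      exact ⟨h.1, h1, Prod.ext rfl h2.symm⟩
    · rintro ⟨y, hy, rfl⟩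
      exact ⟨hy, rfl⟩
  have h2 : P0 r I N ξ = Subgroup.closure ({Inp.T ξ} ∪
      Set.range (fun y => I.uel (DD 𝔐 r) N (FreeGroup.of y))) := I.P_eq_closure (DD 𝔐 r) N ξ
  rw [h1, h2, MonoidHom.map_closure]
  congr 1
  ext h
  constructor
  · rintro ⟨y, (hy | ⟨a, rfl⟩), rfl⟩
    · rw [Set.mem_singleton_iff] at hy
      subst hy
      refine ⟨embH r (tWH sp), List.mem_cons_self, ?_⟩
      rw [phi_embH, evalH_tWH hsp]
      rfl
    · refine ⟨embH r (ulW r I N a), List.mem_cons_of_mem _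
        (List.mem_map.2 ⟨ulW r I N a, (mem_ulList _).2 ⟨a, rfl⟩, rfl⟩), ?_⟩
      rw [phi_embH, evalH_ulW]
      rfl
  · rintro ⟨s, hs, rfl⟩
    rcases List.mem_cons.1 hs with rfl | hs
    · refine ⟨Inp.T ξ, Or.inl rfl, ?_⟩
      rw [phi_embH, evalH_tWH hsp]
      rfl
    · obtain ⟨s', hs', rfl⟩ := List.mem_map.1 hs
      obtain ⟨a, rfl⟩ := (mem_ulList _).1 hs'
      refine ⟨I.uel (DD 𝔐 r) N (FreeGroup.of a), Or.inr ⟨a, rfl⟩, ?_⟩
      rw [phi_embH, evalH_ulW]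
      rfl

theorem base_fg_map {A : Type*} {B : Type*} [Group A] [Group B] (f : A →* B) (S : Subgroup A)
    (hS : S.FG) : (S.map f).FG := by
  obtain ⟨T, hT, hTf⟩ := (Subgroup.fg_iff _).1 hS
  refine (Subgroup.fg_iff _).2 ⟨f '' T, ?_, hTf.image _⟩
  rw [← MonoidHom.map_closure, hT]

/-- `K₀ × M` is finitely generated (`K_fg`; `M` is f.g.; `Subgroup.prod` is generated by the two images; or `Subgroup.FG` of `map inl ⊔ map inr`). -/
theorem KK_fg (hg : Subgroup.closure (Set.range gM) = ⊤) : (KK I M).FG := by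
  have h1 : KK I M = (I.K).map (MonoidHom.inl 𝔐.Hs M) ⊔ (⊤ : Subgroup M).map (MonoidHom.inr 𝔐.Hs M) := by
    apply le_antisymm
    · intro h hh
      have hk : h.1 ∈ I.K := mem_KK.1 hh
      have e : h = MonoidHom.inl 𝔐.Hs M h.1 * MonoidHom.inr 𝔐.Hs M h.2 := by
        ext <;> simp
      rw [e]
      exact Subgroup.mul_mem _
        (Subgroup.mem_sup_left ⟨h.1, hk, rfl⟩) (Subgroup.mem_sup_right ⟨h.2, Subgroup.mem_top _, rfl⟩)
    · rw [sup_le_iff]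
      constructor
      · rintro _ ⟨y, hy, rfl⟩
        exact mem_KK.2 hy
      · rintro _ ⟨y, -, rfl⟩
        exact mem_KK.2 (Subgroup.one_mem _)
  have h2 : (⊤ : Subgroup M).FG :=
    (Subgroup.fg_iff _).2 ⟨Set.range gM, hg, Set.finite_range _⟩
  rw [h1]
  exact Subgroup.FG.sup (base_fg_map _ _ I.K_fg) (base_fg_map _ _ h2)

theorem tW_mem {ξ : 𝔐.Vec} {sp : List 𝔐.HLet} (hsp : (evalH sp : 𝔐.Hs) = inr (x ξ)) :
    phi gM (FreeGroup.mk (embH r (tWH sp))) ∈ PP r I N M ξ := by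
  rw [phi_embH, evalH_tWH hsp]
  exact mem_PP.2 ⟨I.T_mem_P _ _ _, rfl⟩

theorem aW_mem (ξ : 𝔐.Vec) (a : UL r I N) :
    phi gM (FreeGroup.mk (embH r (ulW r I N a))) ∈ PP r I N M ξ := by
  rw [phi_embH, evalH_ulW]
  exact mem_PP.2 ⟨I.uel_mem_P _ _ _ _, rfl⟩

/-- `pi0_apply`, `phi_embH`, `evalH_tWH`, `piP_T` (use `Subtype.ext` / `congrArg` to rewrite inside the subtype). -/
theorem pi0_tW {ξ : 𝔐.Vec} (hξ : I.Start ξ) {sp : List 𝔐.HLet} (hsp : (evalH sp : 𝔐.Hs) = inr (x ξ)) :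
    pi0 hξ ⟨phi gM (FreeGroup.mk (embH r (tWH sp))), tW_mem (N := N) gM hsp⟩ = Jl (nn 𝔐 r) := by
  rw [pi0_apply, ← piP_T (r := r) (N := N) hξ]
  congr 1
  apply Subtype.ext
  show (phi gM (FreeGroup.mk (embH r (tWH sp)))).1 = Inp.T ξ
  rw [phi_embH, evalH_tWH hsp]

/-- `pi0_apply`, `phi_embH`, `evalH_ulW`, `piP_uel`, `lX (of a) = f0X a`. -/
theorem pi0_aW {ξ : 𝔐.Vec} (hξ : I.Start ξ) (a : UL r I N) :
    pi0 hξ ⟨phi gM (FreeGroup.mk (embH r (ulW r I N a))), aW_mem gM ξ a⟩ = incJ (nn 𝔐 r) (f0X r I N a) := by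
  have h1 : lX r I N (FreeGroup.of a) = f0X r I N a := by
    unfold lX
    rw [FreeGroup.lift_apply_of]
  rw [pi0_apply, ← h1, ← piP_uel (r := r) (N := N) hξ (FreeGroup.of a)]
  congr 1
  apply Subtype.ext
  show (phi gM (FreeGroup.mk (embH r (ulW r I N a)))).1 = I.uel (DD 𝔐 r) N (FreeGroup.of a)
  rw [phi_embH, evalH_ulW]

/-- The block of the positive letter `z`. -/
def blkOf (z : Z (nn 𝔐 r)) : UL r I N := Sum.inl (eD 𝔐 r (z, true))

theorem f0X_blkOf (z : Z (nn 𝔐 r)) : f0X r I N (blkOf z) = FreeGroup.of z := by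
  show FreeGroup.mk [(eD 𝔐 r).symm (eD 𝔐 r (z, true))] = FreeGroup.of z
  rw [Equiv.symm_apply_apply]
  rfl

theorem fpH [Group.IsFinitelyPresented M] : Group.IsFinitelyPresented (𝔐.Hs × M) := by
  have := Inp.Hs_isFinitelyPresented (𝔐 := 𝔐)
  exact B.fp_prod

/-- THE BASE DATA. -/
def base [Group.IsFinitelyPresented M] (hg : Subgroup.closure (Set.range gM) = ⊤) (I : Inp 𝔐) (N : ℕ) {ξ : 𝔐.Vec}
    (hξ : I.Start ξ) {sp : List 𝔐.HLet} (hsp : (evalH sp : 𝔐.Hs) = inr (x ξ)) : HwBase (𝔐.Hs × M) (nn 𝔐 r) where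
  φ := phi gM
  φ_surj := phi_surjective gM hg
  R := (@ker_fng _ _ fpH _ (phi gM) (phi_surjective gM hg)).choose
  R_fin := (@ker_fng _ _ fpH _ (phi gM) (phi_surjective gM hg)).choose_spec.1
  R_ker := (@ker_fng _ _ fpH _ (phi gM) (phi_surjective gM hg)).choose_spec.2
  K := KK I M
  K_fg := KK_fg gM hg
  P := PP r I N M ξ
  SP := embH r (tWH sp) :: (ulList r I N).map (embH r)
  P_eq := PP_eq gM hsp
  π₀ := pi0 hξ
  tW := embH r (tWH sp)
  tW_mem := tW_mem gM hsp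
  π₀_t := pi0_tW gM hξ hsp
  aW := fun z => embH r (ulW r I N (blkOf z))
  aW_mem := fun z => aW_mem gM ξ (blkOf z)
  π₀_a := fun z => by rw [pi0_aW, f0X_blkOf]
  Ev1 := {w | phi gM (FreeGroup.mk w) ≠ 1}
  EvP := {w | phi gM (FreeGroup.mk w) ∉ PP r I N M ξ}
  EvK := {w | phi gM (FreeGroup.mk w) ∉ KK I M}
  EvKP := {w | ∀ k ∈ KK I M, ∀ p ∈ PP r I N M ξ, phi gM (FreeGroup.mk w) ≠ k * p}

end Claimed.Agent.R152.IN
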