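/-
Row 152, module IN (instantiation), helper22.   THE PROPERTIES OF `base`: (H4), (H5), `K P ≠ H`, `accept`; the `CT.Hardware`.
-/
import Claimed.Agent.R152.IN.Base
import Claimed.Agent.R152.MC.Export

set_option autoImplicit false

noncomputable section

namespace Claimed.Agent.R152.IN

open Claimed.Agent.R152.HW Claimed.Agent.R152.HW.Aff Claimed.Agent.R152.CT Claimed.Agent.R152.H Function SemidirectProduct

universe u

variable {𝔐 : Aff} {r : ℕ} {I : Inp 𝔐} {N : ℕ} {M : Type u} [Group M] (gM : Fin r → M)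

/-! ### Labels -/

/-- The label of a word in the generators of `U` is at most as long as its number of blocks. Induction on `L`; `FreeGroup.norm_mul_le`, `FreeGroup.norm_inv_eq`, `FreeGroup.norm_mk_le`;
a letter `inr _` contributes `1`. -/
theorem norm_lX_mk_le (L : List (UL r I N × Bool)) :
    (lX r I N (FreeGroup.mk L)).norm ≤ (L.filter (fun y => y.1.isLeft)).length := by
  induction L with
  | nil =>
    have h : (FreeGroup.mk [] : FreeGroup (UL r I N)) = 1 := rfl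
    rw [h, map_one, FreeGroup.norm_one]
    exact Nat.zero_le _
  | cons a L ih =>
    have h1 : (FreeGroup.mk (a :: L) : FreeGroup (UL r I N)) = FreeGroup.mk [a] * FreeGroup.mk L := by
      rw [FreeGroup.mul_mk]
      rfl
    rw [h1, map_mul]
    refine (FreeGroup.norm_mul_le _ _).trans ?_
    obtain ⟨y, b⟩ := a
    have h2 : lX r I N (FreeGroup.mk [(y, b)]) = if b then f0X r I N y else (f0X r I N y)⁻¹ := by
      unfold lX
      rw [FreeGroup.lift_mk]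
      cases b <;> simp
    have h3 : (lX r I N (FreeGroup.mk [(y, b)])).norm = (f0X r I N y).norm := by
      rw [h2]
      cases b
      · simp only [Bool.false_eq_true, if_false, FreeGroup.norm_inv_eq]
      · simp only [if_true]
    rw [h3]
    rcases y with l | j
    · have h4 : (f0X r I N (Sum.inl l)).norm ≤ 1 := by
        show (FreeGroup.mk [(eD 𝔐 r).symm l]).norm ≤ 1
        exact FreeGroup.norm_mk_le
      rw [List.filter_cons_of_pos (by simp), List.length_cons]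
      omega
    · have h4 : (f0X r I N (Sum.inr j)).norm = 0 := by
        show (1 : FX (nn 𝔐 r)).norm = 0
        exact FreeGroup.norm_one
      rw [List.filter_cons_of_neg (by simp)]
      omega

theorem norm_lX_le (ν : FreeGroup (UL r I N)) : (lX r I N ν).norm ≤ (I.code (DD 𝔐 r) N).nblk ν := by
  have h := norm_lX_mk_le (r := r) (I := I) (N := N) ν.toWord
  rwa [FreeGroup.mk_toWord] at h

/-- `lX_of_pos` for lists. -/
theorem lX_of_pos_aux (L : List (UL r I N × Bool)) (hL : ∀ y ∈ L, y.2 = true) :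
    lX r I N (FreeGroup.mk L) = FreeGroup.mk
      ((L.filterMap fun y => (y.1.getLeft? : Option (Fin (DD 𝔐 r)))).map (eD 𝔐 r).symm) := by
  induction L with
  | nil => exact map_one _
  | cons y L ih =>
    obtain ⟨a, e⟩ := y
    have he : e = true := hL (a, e) (by simp)
    subst he
    have ih' := ih fun y hy => hL y (List.mem_cons_of_mem _ hy)
    have h1 : (FreeGroup.mk ((a, true) :: L) : FreeGroup (UL r I N)) =
        FreeGroup.of a * FreeGroup.mk L := rfl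
    have h2 : lX r I N (FreeGroup.of a) = f0X r I N a := FreeGroup.lift_apply_of
    rw [h1, map_mul, ih', h2]
    cases a with
    | inl l => rfl
    | inr j => exact one_mul _

/-- The label of a positive word = the word of its blocks. Induction on a positive list `L` for `lX (mk L) = mk ((L.filterMap fun y => y.1.getLeft?).map (eD 𝔐 r).symm)`, then `FreeGroup.mk_toWord`. -/
theorem lX_of_pos (ν : FreeGroup (UL r I N)) (hν : ∀ y ∈ ν.toWord, y.2 = true) :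
    lX r I N ν = FreeGroup.mk ((I.blocks (DD 𝔐 r) N ν).map (eD 𝔐 r).symm) := by
  have h := lX_of_pos_aux (r := r) (I := I) (N := N) ν.toWord hν
  rw [FreeGroup.mk_toWord] at h
  exact h

/-! ### The guard -/

/-- `piP` of the normal form of `H4`: multiplicativity, `piP_T`, `piP_uel`. -/
theorem piP_form {ξ : 𝔐.Vec} (hξ : I.Start ξ) (L : List (FreeGroup (UL r I N) × Bool)) (ν : FreeGroup (UL r I N))
    (hp : (L.map (fun y => if y.2 then I.uel (DD 𝔐 r) N y.1 * Inp.T ξ * (I.uel (DD 𝔐 r) N y.1)⁻¹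
        else I.uel (DD 𝔐 r) N y.1 * (Inp.T ξ)⁻¹ * (I.uel (DD 𝔐 r) N y.1)⁻¹)).prod * I.uel (DD 𝔐 r) N ν ∈ P0 r I N ξ) :
    piP hξ ⟨_, hp⟩ =
      (L.map fun y => (incJ (nn 𝔐 r) (lX r I N y.1)⁻¹)⁻¹ * (if y.2 then Jl (nn 𝔐 r) else (Jl (nn 𝔐 r))⁻¹) *
        incJ (nn 𝔐 r) (lX r I N y.1)⁻¹).prod * incJ (nn 𝔐 r) (lX r I N ν) := by
  set tP : P0 r I N ξ := ⟨Inp.T ξ, I.T_mem_P (DD 𝔐 r) N ξ⟩ with htP
  set uP : FreeGroup (UL r I N) → P0 r I N ξ :=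
    fun μ => ⟨I.uel (DD 𝔐 r) N μ, I.uel_mem_P (DD 𝔐 r) N ξ μ⟩ with huP
  have e1 : (⟨_, hp⟩ : P0 r I N ξ) =
      (L.map (fun y => if y.2 then uP y.1 * tP * (uP y.1)⁻¹ else uP y.1 * tP⁻¹ * (uP y.1)⁻¹)).prod * uP ν := by
    apply Subtype.ext
    rw [Subgroup.coe_mul, SubmonoidClass.coe_list_prod, List.map_map]
    show (L.map _).prod * I.uel (DD 𝔐 r) N ν = (L.map _).prod * I.uel (DD 𝔐 r) N ν
    congr 2
    apply List.map_congr_left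
    intro y _
    rcases hy : y.2 with _ | _ <;> simp [hy, htP, huP]
  rw [e1, map_mul, map_list_prod, List.map_map]
  have e2 : ∀ μ, piP hξ (uP μ) = incJ (nn 𝔐 r) (lX r I N μ) := fun μ => piP_uel hξ μ
  have e3 : piP hξ tP = Jl (nn 𝔐 r) := piP_T hξ
  rw [e2]
  congr 2
  apply List.map_congr_left
  intro y _
  rcases hy : y.2 with _ | _
  · simp only [Function.comp, hy, Bool.false_eq_true, if_false, map_mul, map_inv, e2, e3, inv_inv]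
  · simp only [Function.comp, hy, if_true, map_mul, map_inv, e2, e3, inv_inv]

/-- (H4) for the max-norm. `Inp.H4` gives the normal form with `(N+1) nblk ≤ (2c₀+1) n`, hence `32 nblk ≤ n`, `nblk ≤ n / 32` (`Nat.le_div_iff_mul_le`);
`piP_form`; `ls = L.map fun y => ((lX y.1)⁻¹, y.2)`; `norm_lX_le`, `FreeGroup.norm_inv_eq`. -/
theorem smallF_of_Bd (hN : 32 * (2 * 𝔐.c₀ + 1) ≤ N + 1) {ξ : 𝔐.Vec} (hξ : I.Start ξ) {p : 𝔐.Hs}
    (hp : p ∈ P0 r I N ξ) {n : ℕ} (hn : Bd n p) : SmallF (n / 32) (piP hξ ⟨p, hp⟩) := by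
  obtain ⟨L, ν, e, hL, hν⟩ := I.H4 (DD 𝔐 r) N hξ hp hn
  have key : ∀ μ : FreeGroup (UL r I N), (N + 1) * (I.code (DD 𝔐 r) N).nblk μ ≤ (2 * 𝔐.c₀ + 1) * n →
      (lX r I N μ).norm ≤ n / 32 := by
    intro μ hμ
    refine (norm_lX_le μ).trans ?_
    rw [Nat.le_div_iff_mul_le (by norm_num)]
    have h1 : 32 * (2 * 𝔐.c₀ + 1) * (I.code (DD 𝔐 r) N).nblk μ ≤ (N + 1) * (I.code (DD 𝔐 r) N).nblk μ :=
      Nat.mul_le_mul_right _ hN
    have h2 : (2 * 𝔐.c₀ + 1) * ((I.code (DD 𝔐 r) N).nblk μ * 32) ≤ (2 * 𝔐.c₀ + 1) * n := by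
      calc (2 * 𝔐.c₀ + 1) * ((I.code (DD 𝔐 r) N).nblk μ * 32)
          = 32 * (2 * 𝔐.c₀ + 1) * (I.code (DD 𝔐 r) N).nblk μ := by ring
        _ ≤ _ := h1.trans hμ
    exact Nat.le_of_mul_le_mul_left h2 (by omega)
  subst e
  refine ⟨L.map fun y => ((lX r I N y.1)⁻¹, y.2), lX r I N ν, ?_, ?_, key ν hν⟩
  · rw [piP_form hξ L ν hp, List.map_map]
    rfl
  · intro l hl
    obtain ⟨y, hy, rfl⟩ := List.mem_map.1 hl
    show ((lX r I N y.1)⁻¹).norm ≤ n / 32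
    rw [FreeGroup.norm_inv_eq]
    exact key y.1 (hL y hy)

/-- The first component of `phi w` is bounded by the norm of `w` (`phi_mk` for `w.toWord`, `FreeGroup.mk_toWord`, `Bd_evalH`, `length_prH_le`, `Bd.mono`; `FreeGroup.norm` is the length of `toWord`). -/
theorem Bd_phi (w : FH (nn 𝔐 r)) : Bd w.norm (phi (𝔐 := 𝔐) gM w).1 := by
  have h : phi (𝔐 := 𝔐) gM w = phi gM (FreeGroup.mk w.toWord) := by rw [FreeGroup.mk_toWord]
  rw [h, phi_mk]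
  exact Bd.mono (length_prH_le w.toWord) (Bd_evalH _)

/-- (H4). `m = w.norm / 32`. -/
theorem h4 (hN : 32 * (2 * 𝔐.c₀ + 1) ≤ N + 1) {ξ : 𝔐.Vec} (hξ : I.Start ξ) (w : FH (nn 𝔐 r))
    (hw : phi gM w ∈ PP r I N M ξ) :
    ∃ m, 16 * m ≤ w.norm ∧ SmallF m (pi0 hξ ⟨phi gM w, hw⟩) := by
  refine ⟨w.norm / 32, ?_, ?_⟩
  · have := Nat.div_mul_le_self w.norm 32
    omega
  · rw [pi0_apply]
    exact smallF_of_Bd hN hξ _ (Bd_phi gM w)

/-- (H5). First components: `(phi w).1 = k.1 * p.1`; `Inp.H5` with `Bd_phi` gives `k' ∈ K₀`, `p' ∈ P₀`, `Bd (2 * norm) p'`; take `(p',1)`; `m = 2 * w.norm / 32`. -/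
theorem h5 (hN : 32 * (2 * 𝔐.c₀ + 1) ≤ N + 1) {ξ : 𝔐.Vec} (hξ : I.Start ξ) (w : FH (nn 𝔐 r)) (k : 𝔐.Hs × M)
    (p : PP r I N M ξ) (hk : k ∈ KK I M) (h : phi gM w = k * p) :
    ∃ p' : PP r I N M ξ, phi gM w * (p' : 𝔐.Hs × M)⁻¹ ∈ KK I M ∧
      ∃ m, 16 * m ≤ w.norm ∧ SmallF m (pi0 hξ p') := by
  have h1 : (phi gM w).1 = k.1 * (p : 𝔐.Hs × M).1 := by rw [h]; rfl
  obtain ⟨k', hk', p', hp', e, hB⟩ := I.H5 (DD 𝔐 r) N ξ
    ⟨k.1, mem_KK.1 hk, (p : 𝔐.Hs × M).1, (mem_PP.1 p.2).1, h1⟩ (Bd_phi gM w)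
  refine ⟨⟨(p', 1), mem_PP.2 ⟨hp', rfl⟩⟩, ?_, 2 * w.norm / 32, ?_, ?_⟩
  · rw [mem_KK]
    show (phi gM w).1 * p'⁻¹ ∈ I.K
    rw [e, mul_inv_cancel_right]
    exact hk'
  · have := Nat.div_mul_le_self (2 * w.norm) 32
    omega
  · rw [pi0_apply]
    exact smallF_of_Bd hN hξ hp' hB

/-- `K P ≠ H` (`Inp.not_mem_KP` for the first components of `(inr (x v), 1)`). -/
theorem kp_ne_top (ξ : 𝔐.Vec) {v : 𝔐.Vec} (hv : v ≠ 0) :
    ∃ h : 𝔐.Hs × M, ∀ k ∈ KK I M, ∀ p ∈ PP r I N M ξ, h ≠ k * p := by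
  refine ⟨((inr (x v) : 𝔐.Hs), 1), ?_⟩
  intro k hk p hp h
  exact I.not_mem_KP (DD 𝔐 r) N ξ v hv
    ⟨k.1, mem_KK.1 hk, p.1, (mem_PP.1 hp).1, congrArg Prod.fst h⟩

/-! ### Acceptance -/

/-- `piP` of a conjugate of the marker. -/
theorem map_pi0_eq_conj {ξ : 𝔐.Vec} (hξ : I.Start ξ) (ν : FreeGroup (UL r I N))
    (h : I.uel (DD 𝔐 r) N ν * Inp.T ξ * (I.uel (DD 𝔐 r) N ν)⁻¹ ∈ P0 r I N ξ) :
    piP hξ ⟨_, h⟩ =
      incJ (nn 𝔐 r) (lX r I N ν) * Jl (nn 𝔐 r) * (incJ (nn 𝔐 r) (lX r I N ν))⁻¹ := by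
  have h1 : (⟨_, h⟩ : P0 r I N ξ) = ⟨I.uel (DD 𝔐 r) N ν, I.uel_mem_P (DD 𝔐 r) N ξ ν⟩ *
      ⟨Inp.T ξ, I.T_mem_P (DD 𝔐 r) N ξ⟩ *
      (⟨I.uel (DD 𝔐 r) N ν, I.uel_mem_P (DD 𝔐 r) N ξ ν⟩ : P0 r I N ξ)⁻¹ := rfl
  rw [h1, map_mul, map_mul, map_inv, piP_uel, piP_T]

/-- `π₀ (K ∩ P)`. `y ∈ P`, `y ∈ K` iff `y = (y₁,1)`, `y₁ ∈ K₀ ⊓ P₀`; `Inp.K_inf_P`. `⊆`: `Subgroup.closure_induction` with the predicate `∀ h : a ∈ P₀, piP ⟨a,h⟩ ∈ RHS`
(generators: multiplicativity of `piP`, `piP_T`, `piP_uel`). `⊇`: `Subgroup.closure_le`, the element `(uel ν T (uel ν)⁻¹, 1)`. -/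
theorem map_pi0_eq {ξ : 𝔐.Vec} (hξ : I.Start ξ) :
    Subgroup.map (pi0 hξ) ((KK I M).subgroupOf (PP r I N M ξ)) =
      Subgroup.closure {e | ∃ ν, I.Acc (DD 𝔐 r) N ξ ν ∧
        e = incJ (nn 𝔐 r) (lX r I N ν) * Jl (nn 𝔐 r) * (incJ (nn 𝔐 r) (lX r I N ν))⁻¹} := by
  have hKP := I.K_inf_P (DD 𝔐 r) N hξ
  have hle : Subgroup.closure {h | ∃ ν, I.Acc (DD 𝔐 r) N ξ ν ∧
      h = I.uel (DD 𝔐 r) N ν * Inp.T ξ * (I.uel (DD 𝔐 r) N ν)⁻¹} ≤ P0 r I N ξ := by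
    rw [← hKP]
    exact inf_le_right
  apply le_antisymm
  · rintro e ⟨⟨y, hyP⟩, hyK, rfl⟩
    have hyK' : y ∈ KK I M := hyK
    rw [pi0_apply]
    have hy1 : y.1 ∈ Subgroup.closure {h | ∃ ν, I.Acc (DD 𝔐 r) N ξ ν ∧
        h = I.uel (DD 𝔐 r) N ν * Inp.T ξ * (I.uel (DD 𝔐 r) N ν)⁻¹} := by
      rw [← hKP]
      exact ⟨mem_KK.1 hyK', (mem_PP.1 hyP).1⟩
    have key : ∀ a (_ : a ∈ Subgroup.closure {h | ∃ ν, I.Acc (DD 𝔐 r) N ξ ν ∧
        h = I.uel (DD 𝔐 r) N ν * Inp.T ξ * (I.uel (DD 𝔐 r) N ν)⁻¹}),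
        ∀ h : a ∈ P0 r I N ξ, piP hξ ⟨a, h⟩ ∈ Subgroup.closure {e | ∃ ν, I.Acc (DD 𝔐 r) N ξ ν ∧
          e = incJ (nn 𝔐 r) (lX r I N ν) * Jl (nn 𝔐 r) * (incJ (nn 𝔐 r) (lX r I N ν))⁻¹} := by
      intro a ha
      induction ha using Subgroup.closure_induction with
      | mem a ha =>
        obtain ⟨ν, hν, rfl⟩ := ha
        intro h
        rw [map_pi0_eq_conj]
        exact Subgroup.subset_closure ⟨ν, hν, rfl⟩
      | one =>
        intro h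
        have h1 : (⟨1, h⟩ : P0 r I N ξ) = 1 := rfl
        rw [h1, map_one]
        exact Subgroup.one_mem _
      | mul a b ha hb iha ihb =>
        intro h
        have h1 : (⟨a * b, h⟩ : P0 r I N ξ) = ⟨a, hle ha⟩ * ⟨b, hle hb⟩ := rfl
        rw [h1, map_mul]
        exact Subgroup.mul_mem _ (iha _) (ihb _)
      | inv a ha iha =>
        intro h
        have h1 : (⟨a⁻¹, h⟩ : P0 r I N ξ) = ⟨a, hle ha⟩⁻¹ := rfl
        rw [h1, map_inv]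
        exact Subgroup.inv_mem _ (iha _)
    exact key _ hy1 _
  · rw [Subgroup.closure_le]
    rintro e ⟨ν, hν, rfl⟩
    have hmem : I.uel (DD 𝔐 r) N ν * Inp.T ξ * (I.uel (DD 𝔐 r) N ν)⁻¹ ∈ I.K ⊓ P0 r I N ξ := by
      rw [hKP]
      exact Subgroup.subset_closure ⟨ν, hν, rfl⟩
    have hP : ((I.uel (DD 𝔐 r) N ν * Inp.T ξ * (I.uel (DD 𝔐 r) N ν)⁻¹, 1) : 𝔐.Hs × M) ∈
        PP r I N M ξ := mem_PP.2 ⟨hmem.2, rfl⟩
    refine ⟨⟨_, hP⟩, ?_, ?_⟩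
    · show ((I.uel (DD 𝔐 r) N ν * Inp.T ξ * (I.uel (DD 𝔐 r) N ν)⁻¹, 1) : 𝔐.Hs × M) ∈ KK I M
      exact mem_KK.2 hmem.1
    · rw [pi0_apply]
      exact map_pi0_eq_conj hξ ν _

/-- `accept` from the self-reference property of the tag. The two generating sets are EQUAL: `lX_of_pos`; every word `w` is `W.map (eD 𝔐 r).symm` for `W = w.map (eD 𝔐 r)`. -/
theorem accept_of {ξ : 𝔐.Vec} (hξ : I.Start ξ) (Nm : WX (nn 𝔐 r) → Prop)
    (h1 : ∀ ν, I.Acc (DD 𝔐 r) N ξ ν → (∀ y ∈ ν.toWord, y.2 = true) ∧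
      Nm ((I.blocks (DD 𝔐 r) N ν).map (eD 𝔐 r).symm))
    (h2 : ∀ W : List (Fin (DD 𝔐 r)), Nm (W.map (eD 𝔐 r).symm) →
      ∃ ν, I.Acc (DD 𝔐 r) N ξ ν ∧ (∀ y ∈ ν.toWord, y.2 = true) ∧ I.blocks (DD 𝔐 r) N ν = W) :
    Subgroup.map (pi0 hξ) ((KK I M).subgroupOf (PP r I N M ξ)) =
      Subgroup.closure {e | ∃ w, Nm w ∧
        e = incJ (nn 𝔐 r) (FreeGroup.mk w) * Jl (nn 𝔐 r) * (incJ (nn 𝔐 r) (FreeGroup.mk w))⁻¹} := by
  rw [map_pi0_eq hξ]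
  congr 1
  ext e
  constructor
  · rintro ⟨ν, hacc, rfl⟩
    obtain ⟨hpos, hNm⟩ := h1 ν hacc
    exact ⟨_, hNm, by rw [lX_of_pos ν hpos]⟩
  · rintro ⟨w, hNm, rfl⟩
    have hw : (w.map (eD 𝔐 r)).map (eD 𝔐 r).symm = w := by
      rw [List.map_map, Equiv.symm_comp_self, List.map_id]
    obtain ⟨ν, hacc, hpos, hb⟩ := h2 (w.map (eD 𝔐 r)) (by rw [hw]; exact hNm)
    exact ⟨ν, hacc, by rw [lX_of_pos ν hpos, hb, hw]⟩

/-! ### The hardware -/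

/-- Every element is the value of a word. -/
theorem exists_word (hg : Subgroup.closure (Set.range gM) = ⊤) (h : 𝔐.Hs × M) :
    ∃ w : WH (nn 𝔐 r), phi gM (FreeGroup.mk w) = h := by
  obtain ⟨f, hf⟩ := phi_surjective gM hg h
  exact ⟨f.toWord, by rw [FreeGroup.mk_toWord, hf]⟩

/-- THE HARDWARE, for a tag with the self-reference property. -/
def hardware [Group.IsFinitelyPresented M] (hg : Subgroup.closure (Set.range gM) = ⊤) (I : Inp 𝔐) (N : ℕ)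
    (hN : 32 * (2 * 𝔐.c₀ + 1) ≤ N + 1) {v : 𝔐.Vec} (hv : v ≠ 0) {ξ : 𝔐.Vec}
    (hξ : I.Start ξ) {sp : List 𝔐.HLet} (hsp : (evalH sp : 𝔐.Hs) = inr (x ξ))
    (h1 : ∀ ν, I.Acc (DD 𝔐 r) N ξ ν → (∀ y ∈ ν.toWord, y.2 = true) ∧
      (base gM hg I N hξ hsp).D .nl ((I.blocks (DD 𝔐 r) N ν).map (eD 𝔐 r).symm))
    (h2 : ∀ W : List (Fin (DD 𝔐 r)), (base gM hg I N hξ hsp).D .nl (W.map (eD 𝔐 r).symm) →
      ∃ ν, I.Acc (DD 𝔐 r) N ξ ν ∧ (∀ y ∈ ν.toWord, y.2 = true) ∧ I.blocks (DD 𝔐 r) N ν = W) :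
    Hardware (𝔐.Hs × M) (nn 𝔐 r) where
  toHwBase := base gM hg I N hξ hsp
  Ev1_sound := fun _ hw => hw
  Ev1_compl := fun h hh => by
    obtain ⟨w, hw⟩ := exists_word gM hg h
    exact ⟨w, by show phi gM (FreeGroup.mk w) ≠ 1; rwa [hw], hw⟩
  EvP_sound := fun _ hw => hw
  EvP_compl := fun h hh => by
    obtain ⟨w, hw⟩ := exists_word gM hg h
    exact ⟨w, by show phi gM (FreeGroup.mk w) ∉ _; rwa [hw], hw⟩
  EvK_sound := fun _ hw => hw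
  EvK_compl := fun h hh => by
    obtain ⟨w, hw⟩ := exists_word gM hg h
    exact ⟨w, by show phi gM (FreeGroup.mk w) ∉ _; rwa [hw], 1, Subgroup.one_mem _, by rw [one_mul]; exact hw⟩
  EvKP_sound := fun _ hw => hw
  EvKP_compl := fun h hh => by
    obtain ⟨w, hw⟩ := exists_word gM hg h
    exact ⟨w, by show ∀ k ∈ _, ∀ p ∈ _, phi gM (FreeGroup.mk w) ≠ k * p; rwa [hw], 1, Subgroup.one_mem _,
      by rw [one_mul]; exact hw⟩
  accept := accept_of hξ _ h1 h2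
  h4 := h4 gM hN hξ
  h5 := fun w k p hk h => h5 gM hN hξ w k p hk h
  kp_ne_top := kp_ne_top ξ hv

end Claimed.Agent.R152.IN
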