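/-
Row 152, module IN (instantiation), helper22.   THE NAMES ARE RECURSIVELY ENUMERABLE, UNIFORMLY IN THE TAG.
Part A (generic): for a family `B q` of `CT.HwBase` with r.e. base languages and a substitution `thL` which does not depend on `q`, `{(q,w) | (B q).D i w}` is r.e. (module RE: `der_re`).
Part B: the family `base … (ξ q)`.
-/
import Claimed.Agent.R152.IN.Props
import Claimed.Agent.R152.EV.MarkFP

set_option autoImplicit false

noncomputable section

namespace Claimed.Agent.R152.IN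

open Claimed.Agent.R152.HW Claimed.Agent.R152.HW.Aff Claimed.Agent.R152.CT Claimed.Agent.R152.H Claimed.Agent.R152.RE Function
  SemidirectProduct

universe u

/-! ### Part A -/

/-- The list of all sorts. -/
def srtList : List Srt :=
  [.all, .eps, .wh, .e1, .ep, .ek, .ekp, .sp, .wp, .jj, .rp, .rn, .tall, .yall, .tn1, .yj, .yt, .y1,
   .tnl, .yrep, .gr0, .gr, .ball, .bn1, .bnA, .bnB, .bnS, .bnSA, .bnSB, .tp, .tn, .rpos, .rneg, .n1, .nl]

theorem mem_srtList (i : Srt) : i ∈ srtList := by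
  cases i <;> simp [srtList]

/-- The sorts form a finite type. -/
instance instFintypeSrt : Fintype Srt := ⟨srtList.toFinset, fun i => List.mem_toFinset.2 (mem_srtList i)⟩

/-- An encoding of the sorts. -/
instance instPrimcodableSrt : Primcodable Srt :=
  Primcodable.ofEquiv (Fin (Fintype.card Srt)) (Fintype.equivFin Srt)

variable {n : ℕ}

/-- The grammar of module CT as a grammar of module RE. -/
def gram (th : Z n × Bool → WX n) : Gram Srt (Z n × Bool) where
  cat := catT
  sub := []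
  mor := morT
  th := th

/-- The two notions of derivation agree (two inductions). -/
theorem der_iff (bs : ℕ → Srt → WX n → Prop) (th : Z n × Bool → WX n) (q : ℕ) (i : Srt) (w : WX n) :
    CT.Der (bs q) catT morT th i w ↔ RE.Der (gram th) bs q i w := by
  constructor
  · intro h
    induction h with
    | base h => exact RE.Der.base h
    | cat h _ _ ihu ihv => exact RE.Der.cat (G := gram th) h ihu ihv
    | mor h _ ih => exact RE.Der.mor (G := gram th) h ih
  · intro h
    induction h with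
    | base h => exact CT.Der.base h
    | cat h _ _ ihu ihv => exact CT.Der.cat h ihu ihv
    | sub h _ _ => exact absurd h (by simp [gram])
    | mor h _ ih => exact CT.Der.mor h ih

variable {H : Type u} [Group H]

/-- The base family is r.e. `re_base_of_list` for the list of the eleven non-empty base languages
`(.all, univ), (.eps, singleton), (.wh, image' of univ under incW), (.e1, image' of h1), …, (.sp, hsp), (.jj, singleton hj), (.rp, singleton), (.rn, singleton)` (`primrec_incW`), then `REPred.of_eq` (cases on the sort). -/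
theorem re_base (B : ℕ → HwBase H n)
    (h1 : RELang fun q (v : WH n) => v ∈ (B q).Ev1) (hP : RELang fun q (v : WH n) => v ∈ (B q).EvP)
    (hK : RELang fun q (v : WH n) => v ∈ (B q).EvK) (hKP : RELang fun q (v : WH n) => v ∈ (B q).EvKP)
    (hsp : RELang fun q (w : WX n) => ∃ s ∈ (B q).SP, w = incW s ∨ w = incW (FreeGroup.invRev s))
    (hj : Computable fun q => (B q).jW) :
    REPred fun y : ℕ × Srt × WX n => (B y.1).base y.2.1 y.2.2 := by
  have hinc : Computable₂ fun (_ : ℕ) (v : WH n) => (incW v : WX n) :=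
    (primrec_incW n).to_comp.comp Computable.snd
  have key := re_base_of_list (σ := Srt) (π := ℕ) (α := Z n × Bool)
    [(Srt.all, fun _ _ => True),
     (Srt.eps, fun _ w => w = []),
     (Srt.wh, fun _ w => ∃ u : WH n, True ∧ w = incW u),
     (Srt.e1, fun q w => ∃ u : WH n, u ∈ (B q).Ev1 ∧ w = incW u),
     (Srt.ep, fun q w => ∃ u : WH n, u ∈ (B q).EvP ∧ w = incW u),
     (Srt.ek, fun q w => ∃ u : WH n, u ∈ (B q).EvK ∧ w = incW u),
     (Srt.ekp, fun q w => ∃ u : WH n, u ∈ (B q).EvKP ∧ w = incW u),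
     (Srt.sp, fun q w => ∃ s ∈ (B q).SP, w = incW s ∨ w = incW (FreeGroup.invRev s)),
     (Srt.jj, fun q w => w = (B q).jW),
     (Srt.rp, fun _ w => w = rhoW n),
     (Srt.rn, fun _ w => w = rhoW' n)]
    (by
      intro y hy
      simp only [List.mem_cons, List.not_mem_nil, or_false] at hy
      rcases hy with rfl | rfl | rfl | rfl | rfl | rfl | rfl | rfl | rfl | rfl | rfl
      · exact RELang.univ
      · exact RELang.singleton (Computable.const [])
      · exact RELang.image' RELang.univ hinc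
      · exact RELang.image' h1 hinc
      · exact RELang.image' hP hinc
      · exact RELang.image' hK hinc
      · exact RELang.image' hKP hinc
      · exact hsp
      · exact RELang.singleton hj
      · exact RELang.singleton (Computable.const (rhoW n))
      · exact RELang.singleton (Computable.const (rhoW' n)))
  refine key.of_eq ?_
  rintro ⟨q, i, w⟩
  cases i <;> simp [HwBase.base]

/-- THE DERIVABLE WORDS ARE R.E. `der_re (gram th) (Primrec.dom_finite th) hb`, `der_iff`, `re_comp` with `y ↦ (y.1, i, y.2)`. -/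
theorem re_D (B : ℕ → HwBase H n) (th : Z n × Bool → WX n) (hth : ∀ q, (B q).thL = th)
    (hb : REPred fun y : ℕ × Srt × WX n => (B y.1).base y.2.1 y.2.2) (i : Srt) :
    REPred fun y : ℕ × WX n => (B y.1).D i y.2 := by
  have h1 := der_re (gram th) (Primrec.dom_finite th) (B := fun q => (B q).base) hb
  have h2 := re_comp h1 (f := fun y : ℕ × WX n => (y.1, i, y.2))
    (Computable.fst.pair ((Computable.const i).pair Computable.snd))
  refine h2.of_eq ?_
  rintro ⟨q, w⟩
  have h3 := der_iff (fun q => (B q).base) th q i w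
  simp only [HwBase.D, hth q]
  exact h3.symm

/-! ### Part B -/

variable {𝔐 : Aff} {r : ℕ} {M : Type u} [Group M] (gM : Fin r → M)

theorem phi_ne_one_iff (w : WH (nn 𝔐 r)) :
    phi (𝔐 := 𝔐) gM (FreeGroup.mk w) ≠ 1 ↔ (evalH (prH w) : 𝔐.Hs) ≠ 1 ∨ CL.ev gM (prM w) ≠ 1 := by
  rw [phi_mk, Ne, Prod.mk_eq_one, not_and_or]

theorem phi_not_mem_PP_iff (I : Inp 𝔐) (N : ℕ) (ξ : 𝔐.Vec) (w : WH (nn 𝔐 r)) :
    phi gM (FreeGroup.mk w) ∉ PP r I N M ξ ↔
      (evalH (prH w) : 𝔐.Hs) ∉ I.P (DD 𝔐 r) N ξ ∨ CL.ev gM (prM w) ≠ 1 := by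
  rw [phi_mk, mem_PP, not_and_or]

theorem phi_not_mem_KK_iff (I : Inp 𝔐) (w : WH (nn 𝔐 r)) :
    phi gM (FreeGroup.mk w) ∉ KK I M ↔ (evalH (prH w) : 𝔐.Hs) ∉ I.K := by
  rw [phi_mk, mem_KK]

/-- `(h,m) = (k₀,m) (p₀,1)`. -/
theorem phi_not_mem_KP_iff (I : Inp 𝔐) (N : ℕ) (ξ : 𝔐.Vec) (w : WH (nn 𝔐 r)) :
    (∀ k ∈ KK I M, ∀ p ∈ PP r I N M ξ, phi gM (FreeGroup.mk w) ≠ k * p) ↔
      ¬ ∃ k ∈ I.K, ∃ p ∈ I.P (DD 𝔐 r) N ξ, (evalH (prH w) : 𝔐.Hs) = k * p := by
  rw [phi_mk]
  constructor
  · rintro h ⟨k, hk, p, hp, e⟩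
    refine h (k, CL.ev gM (prM w)) (mem_KK.2 hk) (p, 1) (mem_PP.2 ⟨hp, rfl⟩) ?_
    rw [Prod.mk_mul_mk, mul_one, e]
  · rintro h k hk p hp e
    refine h ⟨k.1, mem_KK.1 hk, p.1, (mem_PP.1 hp).1, ?_⟩
    exact congrArg Prod.fst e

/-- `q ↦ tWH (sp q)` is computable (`Primrec.list_append`, `Primrec.list_cons`, `A.primrec_invRev` is stated for `Fin m × Bool`; here use
`FreeGroup.invRev W = (W.map fun y => (y.1, !y.2)).reverse`, `Primrec.list_reverse`, `Primrec.list_map`, `Primrec.dom_finite`/`Primrec.not`). -/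
theorem computable_tWH {sp : ℕ → List 𝔐.HLet} (hsp : Computable sp) : Computable fun q => tWH (sp q) := by
  have hinv : Primrec (FreeGroup.invRev : List 𝔐.HLet → List 𝔐.HLet) :=
    Primrec.list_reverse.comp (Primrec.list_map Primrec.id
      ((Primrec.dom_finite (fun y : 𝔐.HLet => (y.1, !y.2))).comp Primrec.snd).to₂)
  have h : Primrec (tWH : List 𝔐.HLet → List 𝔐.HLet) :=
    Primrec.list_append.comp Primrec.id (Primrec.list_cons.comp (Primrec.const tH) hinv)
  exact h.to_comp.comp hsp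

variable [Group.IsFinitelyPresented M] (hg : Subgroup.closure (Set.range gM) = ⊤) (I : Inp 𝔐) (N : ℕ) {ξ : ℕ → 𝔐.Vec}
  (hξ : ∀ q, I.Start (ξ q)) {sp : ℕ → List 𝔐.HLet} (hsp : ∀ q, (evalH (sp q) : 𝔐.Hs) = inr (x (ξ q)))

/-- The family of base data. -/
def fam (q : ℕ) : HwBase (𝔐.Hs × M) (nn 𝔐 r) := base gM hg I N (hξ q) (hsp q)

/-- `thL` only depends on `aW`, which does not depend on `q` (`rfl` or `funext` + cases). -/
theorem fam_thL (q : ℕ) : (fam gM hg I N hξ hsp q).thL = (fam gM hg I N hξ hsp 0).thL := by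
  have key : ∀ (B B' : HwBase (𝔐.Hs × M) (nn 𝔐 r)), B.aW = B'.aW → B.thL = B'.thL := by
    intro B B' h
    funext ⟨z, b⟩
    cases b <;> simp only [HwBase.thL, HwBase.thWd, h]
  have h1 : ∀ q, (fam gM hg I N hξ hsp q).aW = fun z => embH r (ulW r I N (blkOf z)) := fun _ => rfl
  exact key _ _ ((h1 q).trans (h1 0).symm)

/-- `jW = invRev (incW tW) ++ rhoW ++ incW tW ++ rhoW'`, `tW = embH (tWH (sp q))`: `computable_tWH`, `primrec_embH`, `primrec_incW`, `A.primrec_invRev` (or as above), `Primrec.list_append`. -/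
theorem fam_jW_computable (hc : Computable sp) : Computable fun q => (fam gM hg I N hξ hsp q).jW := by
  have hinv : Primrec (FreeGroup.invRev : WX (nn 𝔐 r) → WX (nn 𝔐 r)) :=
    Primrec.list_reverse.comp (Primrec.list_map Primrec.id
      ((Primrec.dom_finite (fun y : Z (nn 𝔐 r) × Bool => (y.1, !y.2))).comp Primrec.snd).to₂)
  have hj : Primrec (fun t : WH (nn 𝔐 r) =>
      FreeGroup.invRev (incW t) ++ rhoW (nn 𝔐 r) ++ incW t ++ rhoW' (nn 𝔐 r)) :=
    Primrec.list_append.comp (Primrec.list_append.comp (Primrec.list_append.comp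
      (hinv.comp (primrec_incW _)) (Primrec.const _)) (primrec_incW _)) (Primrec.const _)
  have h1 : ∀ q, (fam gM hg I N hξ hsp q).jW =
      (fun t : WH (nn 𝔐 r) => FreeGroup.invRev (incW t) ++ rhoW (nn 𝔐 r) ++ incW t ++ rhoW' (nn 𝔐 r))
        (embH r (tWH (sp q))) := fun _ => rfl
  have h2 : Computable fun q => (fun t : WH (nn 𝔐 r) =>
      FreeGroup.invRev (incW t) ++ rhoW (nn 𝔐 r) ++ incW t ++ rhoW' (nn 𝔐 r)) (embH r (tWH (sp q))) :=
    hj.to_comp.comp (primrec_embH.to_comp.comp (computable_tWH hc))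
  exact h2.of_eq (fun q => (h1 q).symm)

/-- `SP q = embH (tWH (sp q)) :: (fixed list)`: the language is `{incW (tW q)} ∪ {incW (invRev (tW q))} ∪` a fixed finite language (`RELang.singleton`, `RELang.union`;
a finite language: induction on the list, or `re_of_primrecPred` of `w ∈ l`). -/
theorem fam_sp_relang (hc : Computable sp) :
    RELang fun q (w : WX (nn 𝔐 r)) => ∃ s ∈ (fam gM hg I N hξ hsp q).SP, w = incW s ∨ w = incW (FreeGroup.invRev s) := by
  have hinv : Primrec (FreeGroup.invRev : WH (nn 𝔐 r) → WH (nn 𝔐 r)) :=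
    Primrec.list_reverse.comp (Primrec.list_map Primrec.id
      ((Primrec.dom_finite (fun y : Fin (nn 𝔐 r) × Bool => (y.1, !y.2))).comp Primrec.snd).to₂)
  have ht : Computable fun q => embH r (tWH (sp q)) :=
    primrec_embH.to_comp.comp (computable_tWH hc)
  have a1 : RELang fun (q : ℕ) (w : WX (nn 𝔐 r)) => w = incW (embH r (tWH (sp q))) :=
    RELang.singleton ((primrec_incW _).to_comp.comp ht)
  have a2 : RELang fun (q : ℕ) (w : WX (nn 𝔐 r)) =>
      w = incW (FreeGroup.invRev (embH r (tWH (sp q)))) :=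
    RELang.singleton ((primrec_incW _).to_comp.comp (hinv.to_comp.comp ht))
  have a3 : ∀ l : List (WH (nn 𝔐 r)), RELang fun (_ : ℕ) (w : WX (nn 𝔐 r)) =>
      ∃ s ∈ l, w = incW s ∨ w = incW (FreeGroup.invRev s) := by
    intro l
    induction l with
    | nil => exact RELang.empty.of_iff (fun _ _ => by simp)
    | cons s l ih =>
      exact (((RELang.singleton (Computable.const (incW s))).union
        (RELang.singleton (Computable.const (incW (FreeGroup.invRev s))))).union ih).of_iff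
        (fun _ _ => by simp)
  refine ((a1.union a2).union (a3 ((ulList r I N).map (embH r)))).of_iff (fun q w => ?_)
  show _ ↔ ∃ s ∈ embH r (tWH (sp q)) :: (ulList r I N).map (embH r),
    w = incW s ∨ w = incW (FreeGroup.invRev s)
  rw [List.exists_mem_cons_iff]

/-- THE NAMES ARE R.E. `re_D` with `re_base`; the four evidence languages by `phi_ne_one_iff` … `phi_not_mem_KP_iff`, `re_or`, `re_comp` with `primrec_prH`, `primrec_prM`;
finally `re_comp` with `(q,W) ↦ (q, W.map (eD 𝔐 r).symm)` (`Primrec.list_map`, `Primrec.dom_finite`). -/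
theorem re_name (hc : Computable sp)
    (re1 : REPred fun W : List 𝔐.HLet => (evalH W : 𝔐.Hs) ≠ 1)
    (reK : REPred fun W : List 𝔐.HLet => (evalH W : 𝔐.Hs) ∉ I.K)
    (reP : REPred fun y : ℕ × List 𝔐.HLet => (evalH y.2 : 𝔐.Hs) ∉ I.P (DD 𝔐 r) N (ξ y.1))
    (reKP : REPred fun y : ℕ × List 𝔐.HLet =>
      ¬ ∃ k ∈ I.K, ∃ p ∈ I.P (DD 𝔐 r) N (ξ y.1), (evalH y.2 : 𝔐.Hs) = k * p)
    (reM : REPred fun w : CL.Wd r => CL.ev gM w ≠ 1) :
    REPred fun y : ℕ × List (Fin (DD 𝔐 r)) => (fam gM hg I N hξ hsp y.1).D .nl (y.2.map (eD 𝔐 r).symm) := by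
  have cH : Computable fun x : ℕ × WH (nn 𝔐 r) => prH x.2 :=
    primrec_prH.to_comp.comp Computable.snd
  have cM : Computable fun x : ℕ × WH (nn 𝔐 r) => prM x.2 :=
    primrec_prM.to_comp.comp Computable.snd
  have cH' : Computable fun x : ℕ × WH (nn 𝔐 r) => (x.1, prH x.2) := Computable.fst.pair cH
  have h1 : RELang fun q (v : WH (nn 𝔐 r)) => v ∈ (fam gM hg I N hξ hsp q).Ev1 :=
    (re_or (re_comp re1 cH) (re_comp reM cM)).of_eq (fun x => (phi_ne_one_iff gM x.2).symm)
  have hP : RELang fun q (v : WH (nn 𝔐 r)) => v ∈ (fam gM hg I N hξ hsp q).EvP :=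
    (re_or (re_comp reP cH') (re_comp reM cM)).of_eq
      (fun x => (phi_not_mem_PP_iff gM I N (ξ x.1) x.2).symm)
  have hK : RELang fun q (v : WH (nn 𝔐 r)) => v ∈ (fam gM hg I N hξ hsp q).EvK :=
    (re_comp reK cH).of_eq (fun x => (phi_not_mem_KK_iff gM I x.2).symm)
  have hKP : RELang fun q (v : WH (nn 𝔐 r)) => v ∈ (fam gM hg I N hξ hsp q).EvKP :=
    (re_comp reKP cH').of_eq (fun x => (phi_not_mem_KP_iff gM I N (ξ x.1) x.2).symm)
  have hb := re_base (fam gM hg I N hξ hsp) h1 hP hK hKP (fam_sp_relang gM hg I N hξ hsp hc)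
    (fam_jW_computable gM hg I N hξ hsp hc)
  have hD := re_D (fam gM hg I N hξ hsp) _ (fam_thL gM hg I N hξ hsp) hb .nl
  have cm : Computable fun y : ℕ × List (Fin (DD 𝔐 r)) => (y.1, y.2.map (eD 𝔐 r).symm) :=
    Computable.fst.pair (Primrec.to_comp (Primrec.list_map Primrec.snd
      ((Primrec.dom_finite (fun a : Fin (DD 𝔐 r) => (eD 𝔐 r).symm a)).comp Primrec.snd).to₂))
  have hfin := re_comp hD cm
  exact hfin

end Claimed.Agent.R152.IN
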